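import Vale.Agent.P297Z.Dim.Alg

/-!
# Points, fibre dimension, tensor products
-/

open scoped TensorProduct nonZeroDivisors

namespace Vale.Agent.P297Z.Dim

variable {k A B : Type} [Field k] [CommRing A] [Algebra k A] [CommRing B] [Algebra k B]

/-! ### points -/

theorem pt_surj (z : A →ₐ[k] k) : Function.Surjective z :=
  fun c => ⟨algebraMap k A c, z.commutes c⟩

theorem ker_isMaximal (z : A →ₐ[k] k) : (RingHom.ker z).IsMaximal :=
  RingHom.ker_isMaximal_of_surjective z (pt_surj z)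

theorem sub_mem_ker (z : A →ₐ[k] k) (r : A) : r - algebraMap k A (z r) ∈ RingHom.ker z := by
  simp [RingHom.mem_ker]

theorem pt_ext {z z' : A →ₐ[k] k} (h : RingHom.ker z ≤ RingHom.ker z') : z = z' := by
  ext r
  have h1 := h (sub_mem_ker z r)
  rw [RingHom.mem_ker, map_sub, AlgHom.commutes, sub_eq_zero] at h1
  exact h1.symm

theorem exists_pt [IsAlgClosed k] [Algebra.FiniteType k A] (m : Ideal A) [m.IsMaximal] :
    ∃ z : A →ₐ[k] k, RingHom.ker z = m := by
  let _ := Ideal.Quotient.field m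
  have := finite_of_finite_type_of_isJacobsonRing k (A ⧸ m)
  let e : k ≃ₐ[k] A ⧸ m := AlgEquiv.ofBijective (Algebra.ofId k (A ⧸ m))
    IsAlgClosed.algebraMap_bijective_of_isIntegral
  refine ⟨(e.symm : A ⧸ m →ₐ[k] k).comp (Ideal.Quotient.mkₐ k m), ?_⟩
  ext x
  simp [RingHom.mem_ker, Ideal.Quotient.eq_zero_iff_mem]

theorem exists_pt_ge [IsAlgClosed k] [Algebra.FiniteType k A] {I : Ideal A} (h : I ≠ ⊤) :
    ∃ z : A →ₐ[k] k, ∀ x ∈ I, z x = 0 := by
  obtain ⟨m, h1, h2⟩ := I.exists_le_maximal h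
  obtain ⟨z, rfl⟩ := exists_pt (k := k) m
  exact ⟨z, h2⟩

/-- the Nullstellensatz -/
theorem mem_radical [IsAlgClosed k] [Algebra.FiniteType k A] {I : Ideal A} {r : A}
    (h : ∀ z : A →ₐ[k] k, (∀ x ∈ I, z x = 0) → z r = 0) : r ∈ I.radical := by
  have : IsJacobsonRing A := isJacobsonRing_of_finiteType (A := k)
  rw [Ideal.radical_eq_jacobson]
  refine Ideal.mem_sInf.2 fun {m} ⟨h1, h2⟩ => ?_
  obtain ⟨z, rfl⟩ := exists_pt (k := k) m
  exact h z h1

/-- a point of a prime where a given element does not vanish -/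
theorem exists_pt_ne [IsAlgClosed k] [Algebra.FiniteType k A] {p : Ideal A} [hp : p.IsPrime]
    {a : A} (h : a ∉ p) : ∃ z : A →ₐ[k] k, (∀ x ∈ p, z x = 0) ∧ z a ≠ 0 := by
  by_contra o
  push Not at o
  exact h (hp.radical ▸ mem_radical o)

/-! ### the lower bound for fibres -/

section lower

variable [Algebra.FiniteType k A]

/-- a system of parameters -/
theorem exists_params {q p : Ideal A} [q.IsPrime] [p.IsPrime] (h : q ≤ p) :
    ∃ s : Finset A, p ∈ (q ⊔ Ideal.span s).minimalPrimes ∧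
      s.card + td k (A ⧸ p) ≤ td k (A ⧸ q) := by
  classical
  have := Algebra.FiniteType.isNoetherianRing k (A ⧸ q)
  have hs := Ideal.Quotient.mk_surjective (I := q)
  have : (p.map (Ideal.Quotient.mk q)).IsPrime :=
    Ideal.map_isPrime_of_surjective hs (by rwa [Ideal.mk_ker])
  obtain ⟨s, h1, h2⟩ := (p.map (Ideal.Quotient.mk q)).exists_finset_card_eq_height_of_isNoetherianRing
  have h3 := height_add_td (k := k) (p.map (Ideal.Quotient.mk q))
  rw [td_quot_map h, ← h2] at h3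
  obtain ⟨g, hg⟩ := hs.hasRightInverse
  have h4 : (Ideal.span (s.image g : Set A)).map (Ideal.Quotient.mk q) = Ideal.span s := by
    rw [Ideal.map_span, Finset.coe_image, hg.image_image]
  rw [← h4, Ideal.minimalPrimes_map_of_surjective hs, Ideal.mk_ker, sup_comm] at h1
  obtain ⟨p', h5, h6⟩ := h1
  have h7 := congrArg (Ideal.comap (Ideal.Quotient.mk q)) h6
  rw [Ideal.comap_map_quotientMk, Ideal.comap_map_quotientMk, sup_eq_right.2 h,
    sup_eq_right.2 (le_sup_left.trans h5.1.2)] at h7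
  refine ⟨s.image g, h7 ▸ h5, le_trans (Nat.add_le_add_right Finset.card_image_le _) ?_⟩
  exact_mod_cast h3.le

variable [Algebra.FiniteType k B]

/-- every component of a fibre has at least the expected dimension -/
theorem fibre_ge (φ : A →ₐ[k] B) {P Q : Ideal B} [P.IsPrime] {p : Ideal A} [p.IsPrime]
    (hQ : Q ∈ (P ⊔ p.map φ).minimalPrimes) (hp : Q.comap φ ≤ p) :
    td k (B ⧸ P) + td k (A ⧸ p) ≤ td k (A ⧸ P.comap φ) + td k (B ⧸ Q) := by
  classical
  have hPQ : P ≤ Q := le_sup_left.trans hQ.1.2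
  obtain ⟨s, h1, h2⟩ := exists_params (k := k) ((Ideal.comap_mono hPQ).trans hp)
  have h3 : Q ∈ (P ⊔ Ideal.span (s.image φ : Finset B)).minimalPrimes := by
    rw [Finset.coe_image, ← Ideal.map_span]
    refine ⟨⟨hQ.1.1, sup_le hPQ ((Ideal.map_mono (le_sup_right.trans h1.1.2)).trans
      (le_sup_right.trans hQ.1.2))⟩, fun Q' hQ' hle => hQ.2 ⟨hQ'.1, sup_le
        (le_sup_left.trans hQ'.2) (Ideal.map_le_iff_le_comap.2 ?_)⟩ hle⟩
    have := hQ'.1
    exact h1.2 ⟨Ideal.IsPrime.comap φ, sup_le (Ideal.comap_mono (le_sup_left.trans hQ'.2))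
      (Ideal.map_le_iff_le_comap.1 (le_sup_right.trans hQ'.2))⟩
      ((Ideal.comap_mono hle).trans hp)
  have h4 := krull (k := k) h3
  have h5 : (s.image φ).card ≤ s.card := Finset.card_image_le
  omega

/-- the same over a point -/
theorem fibre_ge_pt (φ : A →ₐ[k] B) {P Q : Ideal B} [P.IsPrime] (y : A →ₐ[k] k)
    (hQ : Q ∈ (P ⊔ (RingHom.ker y).map φ).minimalPrimes) :
    td k (B ⧸ P) ≤ td k (A ⧸ P.comap φ) + td k (B ⧸ Q) := by
  have h1 := ker_isMaximal y
  have := hQ.1.1
  refine le_self_add.trans (fibre_ge φ hQ (h1.eq_of_le (Ideal.IsPrime.comap φ).ne_top ?_).ge)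
  exact Ideal.map_le_iff_le_comap.1 (le_sup_right.trans hQ.1.2)

/-- a component of the fibre through a given point -/
theorem exists_fibre_comp (φ : A →ₐ[k] B) {P : Ideal B} [P.IsPrime] (z : B →ₐ[k] k)
    (hz : ∀ x ∈ P, z x = 0) :
    ∃ Q ∈ (P ⊔ (RingHom.ker (z.comp φ)).map φ).minimalPrimes, (∀ x ∈ Q, z x = 0) ∧
      td k (B ⧸ P) ≤ td k (A ⧸ P.comap φ) + td k (B ⧸ Q) := by
  have := (ker_isMaximal z).isPrime
  obtain ⟨Q, h1, h2⟩ := Ideal.exists_minimalPrimes_le
    (I := P ⊔ (RingHom.ker (z.comp φ)).map φ) (J := RingHom.ker z)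
    (sup_le hz (Ideal.map_le_iff_le_comap.2 fun _ h => h))
  exact ⟨Q, h1, h2, fibre_ge_pt φ _ h1⟩

theorem td_comap_le (φ : A →ₐ[k] B) (P : Ideal B) [P.IsPrime] :
    td k (A ⧸ P.comap φ) ≤ td k (B ⧸ P) :=
  td_le_of_injective (Ideal.quotientMapₐ P φ le_rfl) Ideal.quotientMap_injective

end lower

/-! ### generic Noether normalisation -/

open MvPolynomial in
theorem exists_normal (A B : Type) [CommRing A] [CommRing B] [IsDomain A] [IsDomain B]
    [Algebra A B] [FaithfulSMul A B] [hf : Algebra.FiniteType A B] :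
    ∃ (e : ℕ) (x : Fin e → B) (a : A), a ≠ 0 ∧ AlgebraicIndependent A x ∧ ∀ b : B, ∃ n : ℕ,
      (aeval x : MvPolynomial (Fin e) A →ₐ[A] B).toRingHom.IsIntegralElem (a ^ n • b) := by
  classical
  let K := FractionRing A
  let _ : Algebra B (K ⊗[A] B) := Algebra.TensorProduct.rightAlgebra
  have hL : IsLocalization (Algebra.algebraMapSubmonoid B A⁰) (K ⊗[A] B) := inferInstance
  have hinj : Function.Injective (algebraMap B (K ⊗[A] B)) :=
    IsLocalization.injective (M := Algebra.algebraMapSubmonoid B A⁰) _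
      (algebraMapSubmonoid_le_nonZeroDivisors_of_faithfulSMul B le_rfl)
  have : Nontrivial (K ⊗[A] B) := hinj.nontrivial
  have hAB : ∀ a : A, algebraMap B (K ⊗[A] B) (algebraMap A B a) =
      algebraMap K _ (algebraMap A K a) := fun a => by
    rw [← IsScalarTower.algebraMap_apply A K]
    exact (Algebra.TensorProduct.includeRight : B →ₐ[A] K ⊗[A] B).commutes a
  obtain ⟨e, g, g1, g2⟩ := exists_integral_inj_algHom_of_fg K (K ⊗[A] B)
  have hx : ∀ i, ∃ (x : B) (c : K), c ≠ 0 ∧ algebraMap B (K ⊗[A] B) x = g (C c * X i) := by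
    intro i
    obtain ⟨⟨x, _, a, ha, rfl⟩, h⟩ := IsLocalization.surj (Algebra.algebraMapSubmonoid B A⁰)
      (g (X i))
    refine ⟨x, algebraMap A K a, IsFractionRing.to_map_ne_zero_of_mem_nonZeroDivisors ha, ?_⟩
    rw [map_mul, algHom_C, ← hAB, mul_comm]
    exact h.symm
  choose x c hc hx using hx
  let g' : MvPolynomial (Fin e) K →ₐ[K] K ⊗[A] B := aeval fun i => algebraMap B _ (x i)
  let σ : MvPolynomial (Fin e) K →ₐ[K] MvPolynomial (Fin e) K := aeval fun i => C (c i)⁻¹ * X i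
  let τ : MvPolynomial (Fin e) K →ₐ[K] MvPolynomial (Fin e) K := aeval fun i => C (c i) * X i
  have e1 : g' = g.comp τ := algHom_ext fun i => by simp only [g', τ, AlgHom.comp_apply, aeval_X, hx]
  have e2 : σ.comp τ = AlgHom.id K _ := algHom_ext fun i => by
    simp only [σ, τ, AlgHom.comp_apply, aeval_X, map_mul, algHom_C, AlgHom.id_apply,
      algebraMap_eq]
    rw [← mul_assoc, ← C_mul, mul_inv_cancel₀ (hc i), C_1, one_mul]
  have e3 : τ.comp σ = AlgHom.id K _ := algHom_ext fun i => by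
    simp only [σ, τ, AlgHom.comp_apply, aeval_X, map_mul, algHom_C, AlgHom.id_apply,
      algebraMap_eq]
    rw [← mul_assoc, ← C_mul, inv_mul_cancel₀ (hc i), C_1, one_mul]
  have i1 : Function.Injective g' := by
    rw [e1]
    exact g1.comp (Function.LeftInverse.injective (g := σ) fun p => AlgHom.congr_fun e2 p)
  have i2 : g'.toRingHom.IsIntegral := by
    have e4 : g = g'.comp σ := by rw [e1, AlgHom.comp_assoc, e3, AlgHom.comp_id]
    rw [e4] at g2
    exact RingHom.IsIntegral.tower_top σ.toRingHom g'.toRingHom g2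
  have e5 : (algebraMap B (K ⊗[A] B)).comp (aeval x : MvPolynomial (Fin e) A →ₐ[A] B).toRingHom =
      g'.toRingHom.comp (map (algebraMap A K)) := by
    refine ringHom_ext (fun a => ?_) fun i => ?_
    · simp [g', hAB]
    · simp [g']
  have one : ∀ b : B, ∃ a : A, a ≠ 0 ∧
      (aeval x : MvPolynomial (Fin e) A →ₐ[A] B).toRingHom.IsIntegralElem (a • b) := by
    intro b
    let _ : Algebra (MvPolynomial (Fin e) A) (MvPolynomial (Fin e) K) := algebraMvPolynomial
    let _ := g'.toRingHom.toAlgebra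
    let _ := (aeval x : MvPolynomial (Fin e) A →ₐ[A] B).toRingHom.toAlgebra
    let _ := (g'.toRingHom.comp (map (algebraMap A K))).toAlgebra
    have : IsScalarTower (MvPolynomial (Fin e) A) (MvPolynomial (Fin e) K) (K ⊗[A] B) :=
      IsScalarTower.of_algebraMap_eq' rfl
    have : IsScalarTower (MvPolynomial (Fin e) A) B (K ⊗[A] B) :=
      IsScalarTower.of_algebraMap_eq' e5.symm
    obtain ⟨⟨_, a, ha, rfl⟩, h⟩ := IsIntegral.exists_multiple_integral_of_isLocalization
      (A⁰.map (C (σ := Fin e))) (Rₘ := MvPolynomial (Fin e) K) (algebraMap B _ b) (i2 _)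
    refine ⟨a, nonZeroDivisors.ne_zero ha, (isIntegral_algebraMap_iff hinj).1 ?_⟩
    rw [Submonoid.smul_def, Algebra.smul_def, IsScalarTower.algebraMap_apply _ B, ← map_mul] at h
    rw [Algebra.smul_def]
    exact (algHom_C (aeval x : MvPolynomial (Fin e) A →ₐ[A] B) a) ▸ h
  choose a ha hb using one
  obtain ⟨t, ht⟩ := hf.out
  let _ := (aeval x : MvPolynomial (Fin e) A →ₐ[A] B).toRingHom.toAlgebra
  have : IsScalarTower A (MvPolynomial (Fin e) A) B :=
    IsScalarTower.of_algebraMap_eq fun a => ((aeval x : _ →ₐ[A] B).commutes a).symm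
  have sm : ∀ (r : A) (b : B), IsIntegral (MvPolynomial (Fin e) A) b →
      IsIntegral (MvPolynomial (Fin e) A) (r • b) := fun r b h => h.smul r
  refine ⟨e, x, ∏ b ∈ t, a b, Finset.prod_ne_zero_iff.2 fun b _ => ha b, ?_, fun b => ?_⟩
  · refine fun p q h => map_injective (σ := Fin e) _ (IsFractionRing.injective A K) (i1 ?_)
    exact (RingHom.congr_fun e5 p).symm.trans ((congrArg (algebraMap B (K ⊗[A] B)) h).trans
      (RingHom.congr_fun e5 q))
  · show ∃ n : ℕ, IsIntegral (MvPolynomial (Fin e) A) (_ ^ n • b)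
    induction (ht ▸ Algebra.mem_top : b ∈ Algebra.adjoin A (t : Set B)) using
      Algebra.adjoin_induction with
    | mem b h =>
      refine ⟨1, ?_⟩
      rw [pow_one, ← Finset.prod_erase_mul _ _ h, mul_smul]
      exact sm _ _ (hb b)
    | algebraMap r =>
      exact ⟨0, sm _ _ (Algebra.algebraMap_eq_smul_one (A := B) r ▸ sm _ _ isIntegral_one)⟩
    | add b b' _ _ h h' =>
      obtain ⟨n, h⟩ := h
      obtain ⟨m, h'⟩ := h'
      refine ⟨n + m, ?_⟩
      rw [smul_add]
      refine IsIntegral.add ?_ ?_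
      · rw [add_comm, pow_add, mul_smul]
        exact sm _ _ h
      · rw [pow_add, mul_smul]
        exact sm _ _ h'
    | mul b b' _ _ h h' =>
      obtain ⟨n, h⟩ := h
      obtain ⟨m, h'⟩ := h'
      exact ⟨n + m, by rw [pow_add, ← smul_mul_smul_comm]; exact h.mul h'⟩

/-- lying over, after inverting one element -/
theorem exists_over {P B : Type} [CommRing P] [CommRing B] [Algebra P B] [FaithfulSMul P B]
    {a : P} (h : ∀ b : B, ∃ n : ℕ, IsIntegral P (a ^ n • b)) (p : Ideal P) [hp : p.IsPrime]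
    (ha : a ∉ p) : ∃ Q : Ideal B, Q.IsPrime ∧ Q.comap (algebraMap P B) = p := by
  have hi : Function.Injective (algebraMap P (integralClosure P B)) :=
    Function.Injective.of_comp (f := algebraMap _ B) (FaithfulSMul.algebraMap_injective P B)
  obtain ⟨M, -, h1, h2⟩ := Ideal.exists_ideal_over_prime_of_isIntegral p
    (⊥ : Ideal (integralClosure P B)) (Ideal.comap_bot_le_of_injective _ hi)
  have hM : ∀ (n : ℕ) (c : integralClosure P B), a ^ n • c ∈ M → c ∈ M := fun n c o => by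
    rw [Algebra.smul_def] at o
    refine (h1.mem_or_mem o).resolve_left fun o' => ha (hp.mem_of_pow_mem n ?_)
    rwa [← h2]
  let Q : Ideal B :=
    { carrier := {b | ∃ n : ℕ, ∃ c ∈ M, (c : B) = a ^ n • b}
      add_mem' := fun {b b'} ⟨n, c, o1, o2⟩ ⟨m, c', o3, o4⟩ =>
        ⟨n + m, a ^ m • c + a ^ n • c', M.add_mem (M.smul_of_tower_mem _ o1)
          (M.smul_of_tower_mem _ o3), by
            rw [Subalgebra.coe_add, Subalgebra.coe_smul, Subalgebra.coe_smul, o2, o4, smul_smul,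
              smul_smul, ← pow_add, ← pow_add, add_comm m, smul_add]⟩
      zero_mem' := ⟨0, 0, M.zero_mem, by simp⟩
      smul_mem' := fun r b ⟨n, c, o1, o2⟩ => by
        obtain ⟨m, o3⟩ := h r
        refine ⟨m + n, ⟨_, o3⟩ * c, M.mul_mem_left _ o1, ?_⟩
        rw [Subalgebra.coe_mul, o2, smul_mul_smul_comm, pow_add, smul_eq_mul] }
  have hc : Q.comap (algebraMap P B) = p := by
    ext r
    rw [← h2]
    refine ⟨fun ⟨n, c, o1, o2⟩ => hM n _ ?_, fun o => ⟨0, _, o, by simp⟩⟩
    exact (Subtype.ext o2 : c = a ^ n • algebraMap P _ r) ▸ o1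
  refine ⟨Q, ⟨fun o => hp.ne_top (by rw [← hc, o, Ideal.comap_top]),
    fun {b b'} ⟨n, c, o1, o2⟩ => ?_⟩, hc⟩
  obtain ⟨l, o3⟩ := h b
  obtain ⟨m, o4⟩ := h b'
  have o5 : a ^ n • ((⟨_, o3⟩ : integralClosure P B) * ⟨_, o4⟩) = a ^ (l + m) • c :=
    Subtype.ext (by
      rw [Subalgebra.coe_smul, Subalgebra.coe_smul, Subalgebra.coe_mul, o2, smul_mul_smul_comm,
        ← pow_add, smul_comm])
  rcases h1.mem_or_mem (hM n _ (o5 ▸ M.smul_of_tower_mem _ o1)) with o | o
  exacts [Or.inl ⟨l, _, o, rfl⟩, Or.inr ⟨m, _, o, rfl⟩]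

section generic

variable [Algebra.FiniteType k A]

open MvPolynomial in
theorem td_quot_poly_le {ι : Type} [Fintype ι] (Q : Ideal (MvPolynomial ι A)) [Q.IsPrime] :
    td k (MvPolynomial ι A ⧸ Q) ≤ td k (A ⧸ Q.comap C) + Fintype.card ι := by
  rw [← td_mvPolynomial]
  exact td_le_of_surjective ((Ideal.Quotient.factorₐ k (Ideal.map_comap_le (f := C) (K := Q))).comp
    ((quotientEquivQuotientMvPolynomial (Q.comap C)).restrictScalars k).toAlgHom)
    ((Ideal.Quotient.factor_surjective Ideal.map_comap_le).comp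
      (quotientEquivQuotientMvPolynomial (Q.comap C)).surjective)

variable [Algebra.FiniteType k B]

open MvPolynomial in
theorem generic_dom [IsDomain A] [IsDomain B] [Algebra A B] [IsScalarTower k A B]
    [FaithfulSMul A B] : ∃ a : A, a ≠ 0 ∧
    (∀ Q : Ideal B, Q.IsPrime → algebraMap A B a ∉ Q →
      td k (B ⧸ Q) + td k A ≤ td k (A ⧸ Q.comap (algebraMap A B)) + td k B) ∧
    (∀ p : Ideal A, p.IsPrime → a ∉ p →
      ∃ Q : Ideal B, Q.IsPrime ∧ Q.comap (algebraMap A B) = p) ∧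
    (td k A = td k B → ∀ b : B, ∃ n : ℕ, IsIntegral A (a ^ n • b)) := by
  have : Algebra.FiniteType A B := Algebra.FiniteType.of_restrictScalars_finiteType k A B
  obtain ⟨e, x, a, h1, h2, h3⟩ := exists_normal A B
  let _ := (aeval x : MvPolynomial (Fin e) A →ₐ[A] B).toRingHom.toAlgebra
  have : IsScalarTower A (MvPolynomial (Fin e) A) B :=
    IsScalarTower.of_algebraMap_eq fun a => ((aeval x : _ →ₐ[A] B).commutes a).symm
  have : IsScalarTower k (MvPolynomial (Fin e) A) B := IsScalarTower.to₁₃₄ k A _ B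
  have : FaithfulSMul (MvPolynomial (Fin e) A) B := (faithfulSMul_iff_algebraMap_injective _ _).2 h2
  have hC : (algebraMap (MvPolynomial (Fin e) A) B).comp C = algebraMap A B :=
    (IsScalarTower.algebraMap_eq A _ B).symm
  have h4 : ∀ b : B, ∃ n : ℕ, IsIntegral (MvPolynomial (Fin e) A)
      ((C a : MvPolynomial (Fin e) A) ^ n • b) := fun b =>
    (h3 b).imp fun n h => by rw [← C_pow, ← algebraMap_eq, algebraMap_smul]; exact h
  have h5 := td_add_card_le (k := k) h2
  refine ⟨a, h1, fun Q hQ ha => ?_, fun p hp ha => ?_, fun h b => ?_⟩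
  · have h6 := td_quot_poly_le (k := k) (Q.comap (algebraMap (MvPolynomial (Fin e) A) B))
    rw [Ideal.comap_comap, hC] at h6
    have : FaithfulSMul (MvPolynomial (Fin e) A ⧸
        Q.comap (algebraMap (MvPolynomial (Fin e) A) B)) (B ⧸ Q) :=
      (faithfulSMul_iff_algebraMap_injective _ _).2 Ideal.algebraMap_quotient_injective
    have : IsScalarTower k (MvPolynomial (Fin e) A ⧸
        Q.comap (algebraMap (MvPolynomial (Fin e) A) B)) (B ⧸ Q) :=
      IsScalarTower.of_algebraMap_eq (R := k) (A := B ⧸ Q)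
        (S := MvPolynomial (Fin e) A ⧸ Q.comap (algebraMap (MvPolynomial (Fin e) A) B))
        fun c => congrArg (Ideal.Quotient.mk Q)
          (IsScalarTower.algebraMap_apply k (MvPolynomial (Fin e) A) B c)
    have h7 : td k (MvPolynomial (Fin e) A ⧸ Q.comap (algebraMap (MvPolynomial (Fin e) A) B)) =
        td k (B ⧸ Q) := by
      refine td_eq_iff.2 ⟨fun b => ?_⟩
      obtain ⟨b, rfl⟩ := Ideal.Quotient.mk_surjective b
      obtain ⟨n, hn⟩ := h4 b
      refine IsAlgebraic.of_smul_isIntegral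
        (y := Ideal.Quotient.mk (Q.comap (algebraMap (MvPolynomial (Fin e) A) B)) (C a ^ n))
        (fun o => ha ?_) ?_
      · have o' := Ideal.Quotient.eq_zero_iff_mem.1 o.eq_zero
        have o2 := (Ideal.IsPrime.comap (algebraMap (MvPolynomial (Fin e) A) B)).mem_of_pow_mem n o'
        exact hC ▸ o2
      · have o := hn.map_of_comp_eq
          (Ideal.Quotient.mk (Q.comap (algebraMap (MvPolynomial (Fin e) A) B)))
          (Ideal.Quotient.mk Q) rfl
        rw [Algebra.smul_def, map_mul] at o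
        rw [Algebra.smul_def]
        exact o
    omega
  · have h6 : (RingHom.ker (map (σ := Fin e) (Ideal.Quotient.mk p))).comap C = p := by
      ext r
      simp [RingHom.mem_ker, Ideal.Quotient.eq_zero_iff_mem]
    have := RingHom.ker_isPrime (map (σ := Fin e) (Ideal.Quotient.mk p))
    obtain ⟨Q, o1, o2⟩ := exists_over h4 (RingHom.ker (map (σ := Fin e) (Ideal.Quotient.mk p)))
      fun o => ha (h6 ▸ o)
    exact ⟨Q, o1, by rw [← hC, ← Ideal.comap_comap, o2, h6]⟩
  · have h6 : e = 0 := by rw [Fintype.card_fin] at h5; omega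
    subst h6
    have : Algebra.IsIntegral A (MvPolynomial (Fin 0) A) :=
      Algebra.isIntegral_of_surjective (C_surjective (Fin 0))
    exact (h3 b).imp fun n h => isIntegral_trans (A := MvPolynomial (Fin 0) A) _ h

/-- generic fibres: not too big, and not empty -/
theorem generic_fibre (φ : A →ₐ[k] B) (P : Ideal B) [P.IsPrime] : ∃ a : A, φ a ∉ P ∧
    (∀ Q : Ideal B, Q.IsPrime → P ≤ Q → φ a ∉ Q →
      td k (B ⧸ Q) + td k (A ⧸ P.comap φ) ≤ td k (A ⧸ Q.comap φ) + td k (B ⧸ P)) ∧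
    ∀ p : Ideal A, p.IsPrime → P.comap φ ≤ p → a ∉ p →
      ∃ Q : Ideal B, Q.IsPrime ∧ P ≤ Q ∧ Q.comap φ = p := by
  let ψ := Ideal.quotientMapₐ P φ le_rfl
  let _ := ψ.toRingHom.toAlgebra
  have : IsScalarTower k (A ⧸ P.comap φ) (B ⧸ P) :=
    IsScalarTower.of_algebraMap_eq fun c => (ψ.commutes c).symm
  have : FaithfulSMul (A ⧸ P.comap φ) (B ⧸ P) :=
    (faithfulSMul_iff_algebraMap_injective _ _).2 Ideal.quotientMap_injective
  obtain ⟨a, h1, h2, h3, -⟩ := generic_dom (k := k) (A := A ⧸ P.comap φ) (B := B ⧸ P)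
  obtain ⟨a, rfl⟩ := Ideal.Quotient.mk_surjective a
  have hc : ∀ Q : Ideal (B ⧸ P), (Q.comap (algebraMap (A ⧸ P.comap φ) (B ⧸ P))).comap
      (Ideal.Quotient.mk _) = (Q.comap (Ideal.Quotient.mk P)).comap φ := fun _ => rfl
  refine ⟨a, fun o => h1 (Ideal.Quotient.eq_zero_iff_mem.2 o), fun Q hQ hle ha => ?_,
    fun p hp hle ha => ?_⟩
  · have e : (Q.map (Ideal.Quotient.mk P)).comap (Ideal.Quotient.mk P) = Q := by
      rw [Ideal.comap_map_quotientMk, sup_eq_right.2 hle]
    have h4 := h2 (Q.map (Ideal.Quotient.mk P)) (Ideal.map_isPrime_of_surjective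
      Ideal.Quotient.mk_surjective (by rwa [Ideal.mk_ker])) fun o => ha (e ▸ o)
    rw [td_quot_map hle, ← td_quot_comap (Ideal.Quotient.mkₐ k (P.comap φ))
      Ideal.Quotient.mk_surjective] at h4
    have h5 := hc (Q.map (Ideal.Quotient.mk P))
    rw [e] at h5
    exact h5 ▸ h4
  · have e : (p.map (Ideal.Quotient.mk (P.comap φ))).comap (Ideal.Quotient.mk _) = p := by
      rw [Ideal.comap_map_quotientMk, sup_eq_right.2 hle]
    obtain ⟨Q, o1, o2⟩ := h3 (p.map (Ideal.Quotient.mk _)) (Ideal.map_isPrime_of_surjective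
      Ideal.Quotient.mk_surjective (by rwa [Ideal.mk_ker])) fun o => ha (e ▸ o)
    refine ⟨Q.comap (Ideal.Quotient.mk P), Ideal.IsPrime.comap _, fun x hx => ?_, ?_⟩
    · rw [Ideal.mem_comap, Ideal.Quotient.eq_zero_iff_mem.2 hx]
      exact Q.zero_mem
    · rw [← hc, o2, e]

/-- generic fibres over points -/
theorem generic_fibre_pt [IsAlgClosed k] (φ : A →ₐ[k] B) (P : Ideal B) [P.IsPrime] :
    ∃ a : A, φ a ∉ P ∧ ∀ y : A →ₐ[k] k, y a ≠ 0 →
      (∀ Q : Ideal B, Q.IsPrime → P ⊔ (RingHom.ker y).map φ ≤ Q →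
        td k (B ⧸ Q) + td k (A ⧸ P.comap φ) ≤ td k (B ⧸ P)) ∧
      ((∀ r, φ r ∈ P → y r = 0) → ∃ z : B →ₐ[k] k, (∀ x ∈ P, z x = 0) ∧ z.comp φ = y) := by
  obtain ⟨a, h1, h2, h3⟩ := generic_fibre φ P
  refine ⟨a, h1, fun y hy => ⟨fun Q hQ hle => ?_, fun h => ?_⟩⟩
  · have h4 := ker_isMaximal y
    have e : RingHom.ker y = Q.comap φ := h4.eq_of_le (Ideal.IsPrime.comap φ).ne_top
      (Ideal.map_le_iff_le_comap.1 (le_sup_right.trans hle))
    have h5 := h2 Q hQ (le_sup_left.trans hle) fun o => hy (show a ∈ RingHom.ker y from e ▸ o)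
    rwa [← e, td_maximal (RingHom.ker y), zero_add] at h5
  · obtain ⟨Q, o1, o2, o3⟩ := h3 (RingHom.ker y) (ker_isMaximal y).isPrime h hy
    obtain ⟨z, hz⟩ := exists_pt_ge (k := k) o1.ne_top
    exact ⟨z, fun x hx => hz x (o2 hx), (pt_ext (z' := z.comp φ) fun r hr =>
      hz (φ r) (o3.ge hr)).symm⟩

end generic

/-! ### tensor products -/

/-- evaluation of the first factor at a point -/
noncomputable def evL (B : Type) [CommRing B] [Algebra k B] (z : A →ₐ[k] k) :
    A ⊗[k] B →ₐ[k] B :=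
  Algebra.TensorProduct.productMap ((Algebra.ofId k B).comp z) (AlgHom.id k B)

theorem evL_tmul (z : A →ₐ[k] k) (a : A) (b : B) : evL B z (a ⊗ₜ b) = z a • b := by
  simp [evL, Algebra.smul_def, Algebra.ofId_apply]

theorem evL_surj (z : A →ₐ[k] k) : Function.Surjective (evL B z) :=
  fun b => ⟨1 ⊗ₜ b, by rw [evL_tmul, map_one, one_smul]⟩

theorem ker_evL (z : A →ₐ[k] k) : RingHom.ker (evL B z) =
    (RingHom.ker z).map (Algebra.TensorProduct.includeLeft : A →ₐ[k] A ⊗[k] B) := by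
  refine le_antisymm (fun f hf => ?_) (Ideal.map_le_iff_le_comap.2 fun a ha => ?_)
  · have key : ∀ f : A ⊗[k] B, f - 1 ⊗ₜ evL B z f ∈
        (RingHom.ker z).map (Algebra.TensorProduct.includeLeft : A →ₐ[k] A ⊗[k] B) := fun f => by
      induction f using TensorProduct.induction_on with
      | zero => simp
      | tmul a b =>
        have e : a ⊗ₜ[k] b - 1 ⊗ₜ evL B z (a ⊗ₜ b) =
            (a - algebraMap k A (z a)) ⊗ₜ 1 * 1 ⊗ₜ b := by
          rw [evL_tmul, Algebra.TensorProduct.tmul_mul_tmul, mul_one, one_mul,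
            TensorProduct.sub_tmul, ← TensorProduct.smul_tmul, Algebra.algebraMap_eq_smul_one]
        exact e ▸ Ideal.mul_mem_right _ _ (Ideal.mem_map_of_mem _ (sub_mem_ker z a))
      | add f g hf hg =>
        rw [map_add, TensorProduct.tmul_add, add_sub_add_comm]
        exact Ideal.add_mem _ hf hg
    have h := key f
    rwa [RingHom.mem_ker.1 hf, TensorProduct.tmul_zero, sub_zero] at h
  · show evL B z (a ⊗ₜ 1) = 0
    rw [evL_tmul, RingHom.mem_ker.1 ha, zero_smul]

theorem repr_evL {ι : Type} (b : Module.Basis ι k B) (z : A →ₐ[k] k) (f : A ⊗[k] B) (i : ι) :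
    b.repr (evL B z f) i = z ((Algebra.TensorProduct.basis A b).repr f i) := by
  induction f using TensorProduct.induction_on with
  | zero => simp
  | tmul a c => simp [evL_tmul, Algebra.TensorProduct.basis_repr_tmul]
  | add f g hf hg => simp only [map_add, Finsupp.add_apply, hf, hg]

variable [IsAlgClosed k] [Algebra.FiniteType k A] [IsDomain A] [IsDomain B]

theorem isDomain_tensor : IsDomain (A ⊗[k] B) := by
  let b := Module.Basis.ofVectorSpace k B
  have key : ∀ f : A ⊗[k] B, f ≠ 0 → ∃ a : A, a ≠ 0 ∧ ∀ z : A →ₐ[k] k, z a ≠ 0 →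
      evL B z f ≠ 0 := fun f hf => by
    obtain ⟨i, hi⟩ := Finsupp.ne_iff.1 ((Algebra.TensorProduct.basis A b).repr.map_ne_zero_iff.2 hf)
    exact ⟨_, hi, fun z hz o => hz (by rw [← repr_evL, o]; simp)⟩
  obtain ⟨z, -⟩ := exists_pt_ge (k := k) (bot_ne_top (α := Ideal A))
  have : Nontrivial (A ⊗[k] B) := (evL_surj z).nontrivial
  have : NoZeroDivisors (A ⊗[k] B) := ⟨fun {f g} h => by
    by_contra o
    obtain ⟨a, h1, h2⟩ := key f fun e => o (Or.inl e)
    obtain ⟨a', h3, h4⟩ := key g fun e => o (Or.inr e)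
    obtain ⟨z, -, h5⟩ := exists_pt_ne (k := k) (p := (⊥ : Ideal A)) (mul_ne_zero h1 h3)
    rw [map_mul] at h5
    exact mul_ne_zero (h2 z (left_ne_zero_of_mul h5)) (h4 z (right_ne_zero_of_mul h5))
      (by rw [← map_mul, h, map_zero])⟩
  exact NoZeroDivisors.to_isDomain _

theorem td_tensor [Algebra.FiniteType k B] : td k (A ⊗[k] B) = td k A + td k B := by
  have := isDomain_tensor (k := k) (A := A) (B := B)
  have : Algebra.FiniteType k (A ⊗[k] B) := Algebra.FiniteType.trans (S := A) inferInstance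
    inferInstance
  obtain ⟨a, h1, h2⟩ := generic_fibre_pt
    (Algebra.TensorProduct.includeLeft : A →ₐ[k] A ⊗[k] B) ⊥
  have e : (⊥ : Ideal (A ⊗[k] B)).comap
      (Algebra.TensorProduct.includeLeft : A →ₐ[k] A ⊗[k] B) = ⊥ :=
    Ideal.comap_bot_of_injective _ (Algebra.TensorProduct.includeLeft_injective (S := k)
      (algebraMap k B).injective)
  obtain ⟨z, -, h3⟩ := exists_pt_ne (k := k) (p := (⊥ : Ideal A)) (a := a)
    fun o => h1 (by rw [Ideal.mem_bot.1 o, map_zero]; exact Ideal.zero_mem _)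
  have hp := RingHom.ker_isPrime (evL B z)
  have h4 := (h2 z h3).1 _ hp (by rw [ker_evL, bot_sup_eq])
  have h5 := fibre_ge_pt (P := ⊥) (Q := RingHom.ker (evL B z)) _ z (by
    rw [bot_sup_eq, ← ker_evL, Ideal.minimalPrimes_eq_subsingleton_self]
    rfl)
  have h6 : td k (A ⊗[k] B ⧸ RingHom.ker (evL B z)) = td k B := by
    unfold td
    rw [(Ideal.quotientKerAlgEquivOfSurjective (evL_surj z)).trdeg_eq]
  rw [e, h6, td_quot_bot, td_quot_bot] at h4 h5
  omega

end Vale.Agent.P297Z.Dim
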