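import Vale.Agent.P297Z.Dim.Fib
import Vale.Agent.P271.H879.RegDom

/-!
# Tangent spaces and regular points
-/

namespace Vale.Agent.P297Z.Dim

open Module

variable {k R : Type} [Field k] [CommRing R] [Algebra k R]

/-- the tangent vectors at `z` which kill `I` -/
def tan (z : R →ₐ[k] k) (I : Ideal R) : Submodule k (R →ₗ[k] k) where
  carrier := {D | (∀ a b, D (a * b) = z a * D b + z b * D a) ∧ ∀ a ∈ I, D a = 0}
  add_mem' := fun {D D'} h h' => ⟨fun a b => by
    rw [LinearMap.add_apply, LinearMap.add_apply, LinearMap.add_apply, h.1 a b, h'.1 a b]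
    ring, fun a ha => by rw [LinearMap.add_apply, h.2 a ha, h'.2 a ha, add_zero]⟩
  zero_mem' := ⟨fun a b => by simp, fun _ _ => rfl⟩
  smul_mem' := fun c D h => ⟨fun a b => by
    rw [LinearMap.smul_apply, LinearMap.smul_apply, LinearMap.smul_apply, h.1 a b]
    simp only [smul_eq_mul]
    ring, fun a ha => by rw [LinearMap.smul_apply, h.2 a ha, smul_zero]⟩

/-- `J ⊆ I` near `z` -/
def LeAt (z : R →ₐ[k] k) (J I : Ideal R) : Prop := ∃ s, z s ≠ 0 ∧ ∀ a ∈ J, s * a ∈ I

variable {z : R →ₐ[k] k} {I J K P : Ideal R} {D : R →ₗ[k] k}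

theorem mem_tan : D ∈ tan z I ↔
    (∀ a b, D (a * b) = z a * D b + z b * D a) ∧ ∀ a ∈ I, D a = 0 := Iff.rfl

theorem tan_one (h : D ∈ tan z I) : D 1 = 0 := by
  have := h.1 1 1
  rw [mul_one, map_one z, one_mul] at this
  exact left_eq_add.1 this

theorem tan_sub (h : D ∈ tan z I) (a : R) : D (a - algebraMap k R (z a)) = D a := by
  rw [map_sub, Algebra.algebraMap_eq_smul_one, map_smul, tan_one h, smul_zero, sub_zero]

theorem tan_anti (h : I ≤ J) : tan z J ≤ tan z I := fun _ hD => ⟨hD.1, fun a ha => hD.2 a (h ha)⟩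

theorem tan_sup : tan z (I ⊔ J) = tan z I ⊓ tan z J := by
  refine le_antisymm (le_inf (tan_anti le_sup_left) (tan_anti le_sup_right)) ?_
  rintro D ⟨h, h'⟩
  refine ⟨h.1, fun a ha => ?_⟩
  obtain ⟨x, hx, y, hy, rfl⟩ := Submodule.mem_sup.1 ha
  rw [map_add, h.2 x hx, h'.2 y hy, add_zero]

theorem tan_span {s : Set R} (hs : ∀ x ∈ s, z x = 0) (h : D ∈ tan z I) (h' : ∀ x ∈ s, D x = 0) :
    D ∈ tan z (Ideal.span s) := by
  refine ⟨h.1, fun a ha => ?_⟩
  suffices z a = 0 ∧ D a = 0 from this.2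
  induction ha using Submodule.span_induction with
  | mem x hx => exact ⟨hs x hx, h' x hx⟩
  | zero => exact ⟨map_zero _, map_zero _⟩
  | add x y _ _ hx hy => rw [map_add, map_add, hx.1, hx.2, hy.1, hy.2, add_zero]; exact ⟨rfl, rfl⟩
  | smul c x _ hx =>
    rw [smul_eq_mul, map_mul, h.1, hx.1, hx.2]
    simp

theorem mem_tan_sup_span {ι : Type} {f : ι → R} (hf : ∀ i, z (f i) = 0) :
    D ∈ tan z (I ⊔ Ideal.span (Set.range f)) ↔ D ∈ tan z I ∧ ∀ i, D (f i) = 0 := by
  rw [tan_sup]
  exact ⟨fun h => ⟨h.1, fun i => h.2.2 _ (Ideal.subset_span ⟨i, rfl⟩)⟩, fun h =>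
    ⟨h.1, tan_span (by rintro _ ⟨i, rfl⟩; exact hf i) h.1 (by rintro _ ⟨i, rfl⟩; exact h.2 i)⟩⟩

theorem tan_ker : tan z (RingHom.ker z) = ⊥ :=
  eq_bot_iff.2 fun D hD => LinearMap.ext fun a => by
    rw [← tan_sub hD, hD.2 _ (sub_mem_ker z a), LinearMap.zero_apply]

theorem span_le_ker {ι : Type} {f : ι → R} (hf : ∀ i, z (f i) = 0) :
    Ideal.span (Set.range f) ≤ RingHom.ker z :=
  Ideal.span_le.2 (by rintro _ ⟨i, rfl⟩; exact hf i)

theorem LeAt.of_le (h : J ≤ I) : LeAt z J I :=
  ⟨1, by simp, fun a ha => by rw [one_mul]; exact h ha⟩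

theorem LeAt.trans (h : LeAt z J I) (h' : LeAt z I K) : LeAt z J K := by
  obtain ⟨s, hs, h⟩ := h
  obtain ⟨t, ht, h'⟩ := h'
  exact ⟨t * s, by rw [map_mul]; exact mul_ne_zero ht hs, fun a ha => by
    rw [mul_assoc]; exact h' _ (h a ha)⟩

theorem LeAt.sup (h : LeAt z J I) (h' : LeAt z K I) : LeAt z (J ⊔ K) I := by
  obtain ⟨s, hs, h⟩ := h
  obtain ⟨t, ht, h'⟩ := h'
  refine ⟨t * s, by rw [map_mul]; exact mul_ne_zero ht hs, fun a ha => ?_⟩
  obtain ⟨x, hx, y, hy, rfl⟩ := Submodule.mem_sup.1 ha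
  rw [mul_add]
  refine I.add_mem ?_ ?_
  · rw [mul_assoc]; exact I.mul_mem_left _ (h x hx)
  · rw [mul_comm t, mul_assoc]; exact I.mul_mem_left _ (h' y hy)

theorem LeAt.le_prime [hP : P.IsPrime] (h : LeAt z J P) (hz : P ≤ RingHom.ker z) : J ≤ P := by
  obtain ⟨s, hs, h⟩ := h
  exact fun a ha => (hP.mem_or_mem (h a ha)).resolve_left fun h1 => hs (hz h1)

theorem LeAt.le_ker (h : LeAt z J I) (hz : I ≤ RingHom.ker z) : J ≤ RingHom.ker z :=
  have := (ker_isMaximal z).isPrime
  (h.trans (.of_le hz)).le_prime le_rfl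

theorem LeAt.tan_le (h : LeAt z J I) (hz : I ≤ RingHom.ker z) : tan z I ≤ tan z J := by
  have hJ := h.le_ker hz
  obtain ⟨s, hs, h⟩ := h
  refine fun D hD => ⟨hD.1, fun a ha => ?_⟩
  have := hD.2 _ (h a ha)
  rw [hD.1, RingHom.mem_ker.1 (hJ ha), zero_mul, add_zero] at this
  exact (mul_eq_zero.1 this).resolve_left hs

theorem leAt_of_forall [IsNoetherianRing R] (h : ∀ a ∈ J, ∃ s, z s ≠ 0 ∧ s * a ∈ I) :
    LeAt z J I := by
  classical
  obtain ⟨t, rfl⟩ := (IsNoetherian.noetherian J : J.FG)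
  choose! s hs hs' using h
  have ht : ∀ x ∈ t, x ∈ Submodule.span R (t : Set R) := fun x hx => Submodule.subset_span hx
  refine ⟨∏ x ∈ t, s x, ?_, fun a ha => ?_⟩
  · rw [map_prod]
    exact Finset.prod_ne_zero_iff.2 fun x hx => hs x (ht x hx)
  · induction ha using Submodule.span_induction with
    | mem x hx =>
      rw [← Finset.prod_erase_mul t s hx, mul_assoc]
      exact I.mul_mem_left _ (hs' x (ht x hx))
    | zero => simp
    | add x y _ _ hx hy => rw [mul_add]; exact I.add_mem hx hy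
    | smul c x _ hx => rw [smul_eq_mul, mul_left_comm]; exact I.mul_mem_left _ hx

/-- the values of tangent vectors on a family of functions -/
def tanEv (z : R →ₐ[k] k) (I : Ideal R) {ι : Type} (f : ι → R) : tan z I →ₗ[k] ι → k where
  toFun D i := D.1 (f i)
  map_add' _ _ := rfl
  map_smul' _ _ := rfl

theorem map_ker_tanEv {ι : Type} {f : ι → R} (hf : ∀ i, z (f i) = 0) :
    (LinearMap.ker (tanEv z I f)).map (tan z I).subtype =
      tan z (I ⊔ Ideal.span (Set.range f)) := by
  ext D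
  rw [mem_tan_sup_span hf]
  constructor
  · rintro ⟨D, hD, rfl⟩
    exact ⟨D.2, fun i => congrFun (LinearMap.mem_ker.1 hD) i⟩
  · rintro ⟨h, h'⟩
    exact ⟨⟨D, h⟩, LinearMap.mem_ker.2 (funext h'), rfl⟩

instance finite_tan [IsNoetherianRing R] : Module.Finite k (tan z I) := by
  obtain ⟨n, f, hf⟩ := Submodule.fg_iff_exists_fin_generating_family.1
    (IsNoetherian.noetherian (RingHom.ker z))
  have h0 : ∀ i, z (f i) = 0 := fun i => by
    rw [← RingHom.mem_ker, ← hf]; exact Submodule.subset_span ⟨i, rfl⟩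
  refine Module.Finite.of_injective (tanEv z I f) ((LinearMap.ker_eq_bot (M := tan z I) (M₂ := Fin n → k)).1 ?_)
  refine (Submodule.map_injective_of_injective (tan z I).injective_subtype) ?_
  rw [map_ker_tanEv h0, Submodule.map_bot, eq_bot_iff, ← tan_ker (z := z)]
  exact tan_anti (hf.ge.trans le_sup_right)

theorem rank_aux {V W : Type} [AddCommGroup V] [Module k V] [AddCommGroup W] [Module k W]
    (T : Submodule k V) [Module.Finite k T] (F : T →ₗ[k] W) : finrank k (LinearMap.range F) +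
      finrank k ((LinearMap.ker F).map T.subtype) = finrank k T := by
  rw [Submodule.finrank_map_subtype_eq]
  exact LinearMap.finrank_range_add_finrank_ker F

section noeth

variable [IsNoetherianRing R]

theorem finrank_tan_le_iff {n : ℕ} : finrank k (tan z I) ≤ n ↔ ∀ V : Submodule k (R →ₗ[k] k),
    (∀ D ∈ V, (∀ a b, D (a * b) = z a * D b + z b * D a) ∧ ∀ a ∈ I, D a = 0) → finrank k V ≤ n :=
  ⟨fun h _ hV => (Submodule.finrank_mono (show _ ≤ tan z I from hV)).trans h,
    fun h => h _ fun _ hD => hD⟩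

theorem finrank_tan_anti (h : I ≤ J) : finrank k (tan z J) ≤ finrank k (tan z I) :=
  Submodule.finrank_mono (tan_anti h)

theorem finrank_range_tanEv {ι : Type} {f : ι → R} (hf : ∀ i, z (f i) = 0) :
    finrank k (LinearMap.range (tanEv z I f)) +
      finrank k (tan z (I ⊔ Ideal.span (Set.range f))) = finrank k (tan z I) := by
  rw [← map_ker_tanEv hf]
  exact rank_aux _ _

/-- `r` equations cut the tangent space down by at most `r` -/
theorem finrank_tan_le_add {ι : Type} [Fintype ι] {f : ι → R} (hf : ∀ i, z (f i) = 0) :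
    finrank k (tan z I) ≤ finrank k (tan z (I ⊔ Ideal.span (Set.range f))) + Fintype.card ι := by
  have h1 := finrank_range_tanEv (I := I) hf
  have h2 := Submodule.finrank_le (LinearMap.range (tanEv z I f))
  rw [Module.finrank_fintype_fun_eq_card] at h2
  omega

/-- if they cut it down by exactly `r`, their differentials are independent -/
theorem tanEv_surj {ι : Type} [Fintype ι] {f : ι → R} (hf : ∀ i, z (f i) = 0)
    (h : finrank k (tan z (I ⊔ Ideal.span (Set.range f))) + Fintype.card ι ≤ finrank k (tan z I)) :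
    Function.Surjective (tanEv z I f) := by
  have h1 := finrank_range_tanEv (I := I) hf
  have h2 := Submodule.finrank_le (LinearMap.range (tanEv z I f))
  refine LinearMap.range_eq_top.1 (Submodule.eq_top_of_finrank_eq ?_)
  rw [Module.finrank_fintype_fun_eq_card] at h2 ⊢
  omega

theorem finrank_tan_of_surj {ι : Type} [Fintype ι] {f : ι → R} (hf : ∀ i, z (f i) = 0)
    (h : Function.Surjective (tanEv z I f)) :
    finrank k (tan z (I ⊔ Ideal.span (Set.range f))) + Fintype.card ι = finrank k (tan z I) := by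
  rw [← finrank_range_tanEv (I := I) hf, LinearMap.range_eq_top.2 h, finrank_top,
    Module.finrank_fintype_fun_eq_card, add_comm]

/-- Nakayama: no tangent vector left means that the ideal is the maximal ideal near `z` -/
theorem gen_of_tan (hI : I ≤ RingHom.ker z) (h : tan z I = ⊥) : LeAt z (RingHom.ker z) I := by
  have h1 : RingHom.ker z ≤ I ⊔ RingHom.ker z • RingHom.ker z := fun a ha => by
    by_contra o
    have o' : a ∉ (I ⊔ RingHom.ker z • RingHom.ker z).restrictScalars k ⊔ k ∙ (1 : R) := fun h2 => by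
      obtain ⟨x, hx, y, hy, rfl⟩ := Submodule.mem_sup.1 h2
      obtain ⟨c, rfl⟩ := Submodule.mem_span_singleton.1 hy
      have h3 : z x = 0 := (sup_le hI Submodule.smul_le_right : _ ≤ RingHom.ker z) hx
      rw [RingHom.mem_ker, map_add, h3, map_smul, map_one, zero_add, smul_eq_mul, mul_one] at ha
      rw [ha, zero_smul, add_zero] at o
      exact o hx
    obtain ⟨D, hD, hD'⟩ := Submodule.exists_le_ker_of_notMem o'
    have h4 : D 1 = 0 := hD' (Submodule.mem_sup_right (Submodule.mem_span_singleton_self _))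
    have h5 : D ∈ tan z I := ⟨fun a b => by
      have h6 : D ((a - algebraMap k R (z a)) * (b - algebraMap k R (z b))) = 0 :=
        hD' (Submodule.mem_sup_left (Submodule.mem_sup_right (S := I)
          (Submodule.smul_mem_smul (sub_mem_ker z a) (sub_mem_ker z b))))
      have h7 : (a - algebraMap k R (z a)) * (b - algebraMap k R (z b)) =
          a * b - z a • b - z b • a + (z a * z b) • (1 : R) := by
        simp only [Algebra.smul_def, map_mul]; ring
      rw [h7, map_add, map_sub, map_sub, map_smul, map_smul, map_smul, h4] at h6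
      simp only [smul_eq_mul] at h6
      linear_combination h6, fun x hx =>
        hD' (Submodule.mem_sup_left (Submodule.mem_sup_left (T := _ • _) hx))⟩
    rw [h, Submodule.mem_bot] at h5
    exact hD (by rw [h5, LinearMap.zero_apply])
  obtain ⟨r, hr, hr'⟩ := Submodule.exists_sub_one_mem_and_smul_le_of_fg_of_le_sup
    (IsNoetherian.noetherian (RingHom.ker z)) le_rfl h1
  refine ⟨r, ?_, fun a ha => hr' (Submodule.smul_mem_pointwise_smul a r _ ha)⟩
  rw [RingHom.mem_ker, map_sub, map_one, sub_eq_zero] at hr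
  rw [hr]; exact one_ne_zero

/-- few elements of `K` cut the tangent space as much as `K` does -/
theorem exists_cut (c : ℕ) : ∀ I : Ideal R,
    finrank k (tan z I) ≤ c + finrank k (tan z (I ⊔ K)) → K ≤ RingHom.ker z →
    ∃ f : Fin c → R, (∀ i, f i ∈ K) ∧ tan z (I ⊔ Ideal.span (Set.range f)) = tan z (I ⊔ K) := by
  have h0 : ∀ (c : ℕ) (I : Ideal R), tan z I ≤ tan z (I ⊔ K) → ∃ f : Fin c → R, (∀ i, f i ∈ K) ∧
      tan z (I ⊔ Ideal.span (Set.range f)) = tan z (I ⊔ K) := fun c I h =>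
    ⟨0, fun _ => K.zero_mem, le_antisymm ((tan_anti le_sup_left).trans h)
      (tan_anti (sup_le_sup_left (Ideal.span_le.2 (by rintro _ ⟨i, rfl⟩; exact K.zero_mem)) _))⟩
  induction c with
  | zero =>
    exact fun I h _ => h0 _ I
      (Submodule.eq_of_le_of_finrank_le (tan_anti le_sup_left) (by simpa using h)).ge
  | succ c ih =>
    intro I h hK
    by_cases h1 : tan z I ≤ tan z (I ⊔ K)
    · exact h0 _ I h1
    obtain ⟨D, hD, hD'⟩ := SetLike.not_le_iff_exists.1 h1
    obtain ⟨a, ha, hDa⟩ : ∃ a ∈ K, D a ≠ 0 := by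
      by_contra o
      push Not at o
      exact hD' (by rw [tan_sup]; exact ⟨hD, hD.1, o⟩)
    have h2 : I ⊔ Ideal.span {a} ⊔ K = I ⊔ K := by
      rw [sup_assoc, sup_eq_right.2 ((Ideal.span_singleton_le_iff_mem _).2 ha)]
    have h3 : finrank k (tan z (I ⊔ Ideal.span {a})) < finrank k (tan z I) :=
      Submodule.finrank_lt_finrank_of_lt (lt_of_le_of_ne (tan_anti le_sup_left) fun e => hDa
        ((e.ge hD).2 a (Submodule.mem_sup_right (Ideal.mem_span_singleton_self a))))
    obtain ⟨f, hf, hf'⟩ := ih (I ⊔ Ideal.span {a}) (by rw [h2]; omega) hK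
    refine ⟨Fin.cons a f, fun i => Fin.cases ha hf i, ?_⟩
    rw [← h2, ← hf', Fin.range_cons, Ideal.span_insert, sup_assoc]

/-- local generators of the maximal ideal -/
theorem exists_gen {n : ℕ} (hI : I ≤ RingHom.ker z) (h : finrank k (tan z I) ≤ n) :
    ∃ x : Fin n → R, (∀ i, z (x i) = 0) ∧
      LeAt z (RingHom.ker z) (I ⊔ Ideal.span (Set.range x)) := by
  obtain ⟨x, hx, hx'⟩ := exists_cut (z := z) (K := RingHom.ker z) n I (by omega) le_rfl
  exact ⟨x, hx, gen_of_tan (sup_le hI (span_le_ker hx)) (by rw [hx', sup_eq_right.2 hI, tan_ker])⟩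

theorem tan_le_of_gen {ι : Type} [Fintype ι] {x : ι → R} (hI : I ≤ RingHom.ker z)
    (hx : ∀ i, z (x i) = 0) (h : LeAt z (RingHom.ker z) (I ⊔ Ideal.span (Set.range x))) :
    finrank k (tan z I) ≤ Fintype.card ι := by
  have h1 := finrank_tan_le_add (I := I) hx
  have h2 := h.tan_le (sup_le hI (span_le_ker hx))
  rw [tan_ker, le_bot_iff] at h2
  rwa [h2, finrank_bot, zero_add] at h1

/-- generators of the maximal ideal, at most as many as the height: regular -/
theorem regular_of_gen {ι : Type} [Fintype ι] {x : ι → R} {m : Ideal R} [m.IsPrime]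
    (hm : RingHom.ker z = m) (hx : ∀ i, z (x i) = 0)
    (h : LeAt z (RingHom.ker z) (Ideal.span (Set.range x))) (hd : Fintype.card ι ≤ m.height)
    (A : Type) [CommRing A] [Algebra R A] [IsLocalization.AtPrime A m] : IsRegularLocalRing A := by
  subst hm
  have := IsLocalization.AtPrime.isLocalRing A (RingHom.ker z)
  have := IsLocalization.isNoetherianRing (RingHom.ker z).primeCompl A inferInstance
  have h1 : IsLocalRing.maximalIdeal A = Ideal.span (Set.range fun i => algebraMap R A (x i)) := by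
    rw [← IsLocalization.AtPrime.map_eq_maximalIdeal (RingHom.ker z) A]
    refine le_antisymm (Ideal.map_le_iff_le_comap.2 fun a ha => ?_) (Ideal.span_le.2 ?_)
    · obtain ⟨s, hs, h⟩ := h
      have h2 := Ideal.mem_map_of_mem (algebraMap R A) (h a ha)
      rw [Ideal.map_span, ← Set.range_comp, map_mul] at h2
      exact (Ideal.unit_mul_mem_iff_mem _
        (IsLocalization.map_units A (⟨s, hs⟩ : (RingHom.ker z).primeCompl))).1 h2
    · rintro _ ⟨i, rfl⟩
      exact Ideal.mem_map_of_mem _ (hx i)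
  refine IsRegularLocalRing.of_spanFinrank_maximalIdeal_le A ?_
  rw [IsLocalization.AtPrime.ringKrullDim_eq_height (RingHom.ker z) A]
  have h3 : (IsLocalRing.maximalIdeal A).spanFinrank ≤ Fintype.card ι := by
    rw [h1]
    refine (Submodule.spanFinrank_span_le_ncard_of_finite (Set.finite_range _)).trans ?_
    rw [← Set.image_univ]
    exact (Set.ncard_image_le).trans (by simp)
  exact_mod_cast (Nat.cast_le.2 h3).trans hd

end noeth

variable [Algebra.FiniteType k R]

theorem td_le_of_gen [P.IsPrime] {ι : Type} [Fintype ι] {x : ι → R} (hz : P ≤ RingHom.ker z)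
    (hx : ∀ i, z (x i) = 0) (h : LeAt z (RingHom.ker z) (P ⊔ Ideal.span (Set.range x))) :
    td k (R ⧸ P) ≤ Fintype.card ι := by
  have := ker_isMaximal z
  obtain ⟨s, hs, h⟩ := h
  have h1 := krull' (k := k) (min_of_local (I := RingHom.ker z)
    (by rw [Ideal.minimalPrimes_eq_subsingleton_self]; rfl) hs (sup_le hz (span_le_ker hx))
    fun a ha => Ideal.le_radical (h a ha))
  rwa [td_maximal (RingHom.ker z), zero_add] at h1

/-- the dimension is at most the dimension of the tangent space -/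
theorem td_le_tan [P.IsPrime] (hI : I ≤ P) (hz : P ≤ RingHom.ker z) :
    td k (R ⧸ P) ≤ finrank k (tan z I) := by
  have := Algebra.FiniteType.isNoetherianRing k R
  obtain ⟨x, hx, h⟩ := exists_gen hz (finrank_tan_anti (z := z) hI)
  simpa using td_le_of_gen hz hx h

/-- small tangent space: regular local ring -/
theorem regular_of_tan [P.IsPrime] {m : Ideal R} [m.IsPrime] (hm : RingHom.ker z = m) (hz : P ≤ m)
    (h : finrank k (tan z ⊥) ≤ td k (R ⧸ P)) (A : Type) [CommRing A] [Algebra R A]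
    [IsLocalization.AtPrime A m] : IsRegularLocalRing A := by
  have := Algebra.FiniteType.isNoetherianRing k R
  obtain ⟨x, hx, h1⟩ := exists_gen bot_le h
  rw [bot_sup_eq] at h1
  have : m.IsMaximal := hm ▸ ker_isMaximal z
  exact regular_of_gen hm hx h1 (by simpa using td_le_height (k := k) hz) A

theorem bot_at [P.IsPrime] (hz : P ≤ RingHom.ker z) (h : finrank k (tan z ⊥) ≤ td k (R ⧸ P)) :
    LeAt z P ⊥ := by
  have := Algebra.FiniteType.isNoetherianRing k R
  have := ker_isMaximal z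
  let A := Localization.AtPrime (RingHom.ker z)
  have := regular_of_tan rfl hz h A
  have := P271.H879.Reg.isDomain A
  have := RingHom.ker_isPrime (algebraMap R A)
  have h1 : LeAt z (RingHom.ker (algebraMap R A)) ⊥ := leAt_of_forall fun a ha => by
    obtain ⟨s, hs⟩ := (IsLocalization.map_eq_zero_iff (RingHom.ker z).primeCompl A a).1 ha
    exact ⟨s, s.2, hs⟩
  have h2 := (h1.trans (.of_le bot_le)).le_prime hz
  rwa [← eq_of_td_le (k := k) h2 ((td_le_tan bot_le (h2.trans hz)).trans h)]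

/-- the point of the quotient -/
def quoPt (z : R →ₐ[k] k) (I : Ideal R) (hI : I ≤ RingHom.ker z) : R ⧸ I →ₐ[k] k :=
  Ideal.Quotient.liftₐ I z hI

theorem finrank_tan_quo (hI : I ≤ RingHom.ker z) :
    finrank k (tan (quoPt z I hI) ⊥) ≤ finrank k (tan z I) := by
  have := Algebra.FiniteType.isNoetherianRing k R
  let F : tan (quoPt z I hI) ⊥ →ₗ[k] tan z I :=
    { toFun := fun D => ⟨D.1.comp (Ideal.Quotient.mkₐ k I).toLinearMap, 
        fun a b => D.2.1 (Ideal.Quotient.mk I a) (Ideal.Quotient.mk I b),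
        fun a ha => by
          show D.1 (Ideal.Quotient.mk I a) = 0
          rw [Ideal.Quotient.eq_zero_iff_mem.2 ha, map_zero]⟩
      map_add' := fun _ _ => rfl
      map_smul' := fun _ _ => rfl }
  refine LinearMap.finrank_le_finrank_of_injective (f := F) fun D D' e => ?_
  refine Subtype.ext (LinearMap.ext fun a => ?_)
  obtain ⟨a, rfl⟩ := Ideal.Quotient.mk_surjective a
  exact congr(($e).1 a)

/-- small tangent space: the ideal is prime near the point -/
theorem eq_at [P.IsPrime] (hI : I ≤ P) (hz : P ≤ RingHom.ker z)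
    (h : finrank k (tan z I) ≤ td k (R ⧸ P)) : LeAt z P I := by
  have h0 := hI.trans hz
  have := Ideal.map_isPrime_of_surjective (f := Ideal.Quotient.mk I) Ideal.Quotient.mk_surjective
    (Ideal.mk_ker.trans_le hI)
  obtain ⟨s, hs, h1⟩ := bot_at (z := quoPt z I h0) (P := P.map (Ideal.Quotient.mk I))
    (Ideal.map_le_iff_le_comap.2 fun a ha => hz ha)
    (by rw [td_quot_map hI]; exact (finrank_tan_quo h0).trans h)
  obtain ⟨s, rfl⟩ := Ideal.Quotient.mk_surjective s
  exact ⟨s, hs, fun a ha => Ideal.Quotient.eq_zero_iff_mem.1 (h1 _ (Ideal.mem_map_of_mem _ ha))⟩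

/-- the local ring of the zero set is regular -/
theorem regular_quo [P.IsPrime] (hI : I ≤ P) (hz : P ≤ RingHom.ker z)
    (h : finrank k (tan z I) ≤ td k (R ⧸ P)) {m : Ideal (R ⧸ I)} [m.IsPrime]
    (hm : RingHom.ker (quoPt z I (hI.trans hz)) = m) (A : Type) [CommRing A] [Algebra (R ⧸ I) A]
    [IsLocalization.AtPrime A m] : IsRegularLocalRing A := by
  have := Ideal.map_isPrime_of_surjective (f := Ideal.Quotient.mk I) Ideal.Quotient.mk_surjective
    (Ideal.mk_ker.trans_le hI)
  exact regular_of_tan (P := P.map (Ideal.Quotient.mk I)) hm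
    (hm ▸ Ideal.map_le_iff_le_comap.2 fun a ha => hz ha)
    (by rw [td_quot_map hI]; exact (finrank_tan_quo _).trans h) A

/-- only one component passes through a regular point -/
theorem le_of_tan [P.IsPrime] [J.IsPrime] (hI : I ≤ P) (hz : P ≤ RingHom.ker z)
    (h : finrank k (tan z I) ≤ td k (R ⧸ P)) (hJ : I ≤ J) (hz' : J ≤ RingHom.ker z) : P ≤ J :=
  ((eq_at hI hz h).trans (.of_le hJ)).le_prime hz'

theorem finrank_tan_eq [P.IsPrime] (hI : I ≤ P) (hz : P ≤ RingHom.ker z)
    (h : finrank k (tan z I) ≤ td k (R ⧸ P)) :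
    finrank k (tan z I) = td k (R ⧸ P) ∧ tan z I = tan z P :=
  ⟨le_antisymm h (td_le_tan hI hz),
    le_antisymm ((eq_at hI hz h).tan_le (hI.trans hz)) (tan_anti hI)⟩

/-- equations with independent differentials cut out a regular subvariety -/
theorem exists_prime_cut [P.IsPrime] (hI : I ≤ P) (hz : P ≤ RingHom.ker z) {ι : Type} [Fintype ι]
    {f : ι → R} (hf : ∀ i, z (f i) = 0)
    (h : finrank k (tan z (I ⊔ Ideal.span (Set.range f))) + Fintype.card ι ≤ td k (R ⧸ P)) :
    ∃ Q : Ideal R, Q.IsPrime ∧ P ⊔ Ideal.span (Set.range f) ≤ Q ∧ Q ≤ RingHom.ker z ∧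
      td k (R ⧸ Q) + Fintype.card ι = td k (R ⧸ P) ∧ LeAt z Q (I ⊔ Ideal.span (Set.range f)) := by
  have := ker_isMaximal z
  have := Algebra.FiniteType.isNoetherianRing k R
  obtain ⟨Q, hQ, hQz⟩ := Ideal.exists_minimalPrimes_le (sup_le hz (span_le_ker hf))
  have := hQ.1.1
  have h1 := krull' (k := k) hQ
  have h2 : I ⊔ Ideal.span (Set.range f) ≤ Q := (sup_le_sup_right hI _).trans hQ.1.2
  have h3 := td_le_tan h2 hQz
  exact ⟨Q, this, hQ.1.2, hQz, by omega, eq_at h2 hQz (by omega)⟩

/-- a regular subvariety `V(P)` of `V(I)`, cut out near `z` by `I` and `K`, is cut out by `I` and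
the right number of elements of `K` -/
theorem exists_eqs [P.IsPrime] (hI : I ⊔ K ≤ P) (hz : P ≤ RingHom.ker z) {c : ℕ}
    (h : finrank k (tan z (I ⊔ K)) ≤ td k (R ⧸ P)) (hc : finrank k (tan z I) ≤ c + td k (R ⧸ P)) :
    ∃ f : Fin c → R, (∀ i, f i ∈ K) ∧ tan z (I ⊔ Ideal.span (Set.range f)) = tan z P ∧
      LeAt z P (I ⊔ Ideal.span (Set.range f)) := by
  have := Algebra.FiniteType.isNoetherianRing k R
  obtain ⟨h1, h2⟩ := finrank_tan_eq hI hz h
  obtain ⟨f, hf, hf'⟩ := exists_cut c I (by rw [h1]; exact hc) ((le_sup_right.trans hI).trans hz)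
  exact ⟨f, hf, hf'.trans h2, eq_at ((sup_le_sup_left (Ideal.span_le.2
    (by rintro _ ⟨i, rfl⟩; exact hf i)) _).trans hI) hz (by rw [hf', h1])⟩

/-- at a regular point, functions with independent differentials: every subfamily generates a
prime near `z`, which contains none of the other functions -/
theorem exists_prime_sub [P.IsPrime] (hI : I ≤ P) (hz : P ≤ RingHom.ker z)
    (h : finrank k (tan z I) ≤ td k (R ⧸ P)) {ι : Type} [Finite ι] {f : ι → R}
    (hf : ∀ i, z (f i) = 0) (hs : Function.Surjective (tanEv z I f)) (S : Set ι) :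
    ∃ Q : Ideal R, Q.IsPrime ∧ P ⊔ Ideal.span (f '' S) ≤ Q ∧ Q ≤ RingHom.ker z ∧
      td k (R ⧸ Q) + S.ncard = td k (R ⧸ P) ∧ LeAt z Q (I ⊔ Ideal.span (f '' S)) ∧
      ∀ i ∉ S, f i ∉ Q := by
  classical
  have := Algebra.FiniteType.isNoetherianRing k R
  have := Fintype.ofFinite S
  have hf' : ∀ i : S, z (f i) = 0 := fun i => hf i
  have h1 := finrank_tan_of_surj (I := I) hf' fun v => by
    obtain ⟨D, hD⟩ := hs fun i => if h : i ∈ S then v ⟨i, h⟩ else 0
    exact ⟨D, funext fun i => (congrFun hD i).trans (dif_pos i.2)⟩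
  obtain ⟨Q, hQ, h2, h3, h4, h5⟩ := exists_prime_cut hI hz hf' (h1.trans_le h)
  rw [← Set.image_eq_range] at h2 h5
  have h6 : I ⊔ Ideal.span (f '' S) ≤ Q := (sup_le_sup_right hI _).trans h2
  refine ⟨Q, hQ, h2, h3, by rw [← h4, Set.ncard_eq_toFinset_card', Set.toFinset_card], h5,
    fun i hi hQi => ?_⟩
  obtain ⟨D, hD⟩ := hs (Pi.single i 1)
  have h7 : D.1 ∈ tan z (I ⊔ Ideal.span (f '' S)) := by
    rw [Set.image_eq_range, mem_tan_sup_span hf']
    exact ⟨D.2, fun j => (congrFun hD j).trans (Pi.single_eq_of_ne (fun e : j.1 = i => hi (e ▸ j.2)) _)⟩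
  exact one_ne_zero ((Pi.single_eq_same (M := fun _ => k) i 1).symm.trans
    ((congrFun hD i).symm.trans ((h5.tan_le (h6.trans h3) h7).2 _ hQi)))

/-- regular sequences near `z`, in any order -/
theorem reg_seq [P.IsPrime] (hI : I ≤ P) (hz : P ≤ RingHom.ker z)
    (h : finrank k (tan z I) ≤ td k (R ⧸ P)) {ι : Type} [Finite ι] {f : ι → R}
    (hf : ∀ i, z (f i) = 0) (hs : Function.Surjective (tanEv z I f)) (S : Set ι) :
    ∃ s, z s ≠ 0 ∧ ∀ i ∉ S, ∀ a, f i * a ∈ I ⊔ Ideal.span (f '' S) →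
      s * a ∈ I ⊔ Ideal.span (f '' S) := by
  obtain ⟨Q, hQ, h1, -, -, ⟨s, hs, h2⟩, h3⟩ := exists_prime_sub hI hz h hf hs S
  exact ⟨s, hs, fun i hi a ha => h2 a
    ((hQ.mem_or_mem ((sup_le_sup_right hI _).trans h1 ha)).resolve_left (h3 i hi))⟩

/-- as many local generators of the maximal ideal as the dimension: independent differentials -/
theorem surj_of_gen [P.IsPrime] (hI : I ≤ P) (hz : P ≤ RingHom.ker z) {ι : Type} [Fintype ι]
    {x : ι → R} (hx : ∀ i, z (x i) = 0)
    (h : LeAt z (RingHom.ker z) (I ⊔ Ideal.span (Set.range x)))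
    (hd : Fintype.card ι ≤ td k (R ⧸ P)) :
    finrank k (tan z I) ≤ td k (R ⧸ P) ∧ Function.Surjective (tanEv z I x) := by
  have := Algebra.FiniteType.isNoetherianRing k R
  have h2 := h.tan_le (sup_le (hI.trans hz) (span_le_ker hx))
  rw [tan_ker, le_bot_iff] at h2
  exact ⟨(tan_le_of_gen (hI.trans hz) hx h).trans hd,
    tanEv_surj hx (by rw [h2, finrank_bot, zero_add]; exact hd.trans (td_le_tan hI hz))⟩

omit [Algebra.FiniteType k R] in
/-- the tangent space of affine space -/
theorem finrank_tan_poly {ι : Type} [Fintype ι] (z : MvPolynomial ι k →ₐ[k] k) (w : Set ι) :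
    finrank k (tan z (Ideal.span (MvPolynomial.X '' wᶜ))) ≤ w.ncard := by
  classical
  rw [Set.ncard_eq_toFinset_card', Set.toFinset_card]
  have hx : ∀ i : w, z (MvPolynomial.X i.1 - algebraMap k _ (z (MvPolynomial.X i.1))) = 0 :=
    fun i => sub_mem_ker z _
  have h1 := finrank_tan_le_add (I := Ideal.span (MvPolynomial.X '' wᶜ)) hx
  suffices h : tan z (Ideal.span (MvPolynomial.X '' wᶜ) ⊔ Ideal.span (Set.range fun i : w =>
      MvPolynomial.X i.1 - algebraMap k _ (z (MvPolynomial.X i.1)))) = ⊥ by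
    rwa [h, finrank_bot, zero_add] at h1
  refine eq_bot_iff.2 fun D hD => LinearMap.ext fun p => ?_
  obtain ⟨h2, h3⟩ := (mem_tan_sup_span hx).1 hD
  have h4 : ∀ a, D (MvPolynomial.X a) = 0 := fun a => by
    by_cases ha : a ∈ w
    · rw [← tan_sub h2]; exact h3 ⟨a, ha⟩
    · exact h2.2 _ (Ideal.subset_span ⟨a, ha, rfl⟩)
  rw [LinearMap.zero_apply]
  induction p using MvPolynomial.induction_on with
  | C c => rw [← MvPolynomial.algebraMap_eq, Algebra.algebraMap_eq_smul_one, map_smul, tan_one h2,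
      smul_zero]
  | add p q hp hq => rw [map_add, hp, hq, add_zero]
  | mul_X p i hp => rw [h2.1, hp, h4, mul_zero, mul_zero, add_zero]

end Vale.Agent.P297Z.Dim
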