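import Vale.Agent.P297Z.Dim.Irr
import Vale.Agent.P297Z.Top.Defs

/-!
# Varieties
-/

set_option linter.all false

namespace Vale.Agent.P297Z.Dim

variable {X Y : Spc} {Z : Set X.Pt} {m n : ℕ}

theorem isVar_iff : X.IsVar n ↔ X.IsProj ∧ X.Irr ∧ X.HasDim n :=
  ⟨fun h => ⟨h.proj, ⟨h.dom, h.ne⟩, h.dim⟩, fun h => ⟨h.1, h.2.1.1, h.2.1.2, h.2.2⟩⟩

theorem var_prime (h : X.IsVar n) : (X.van Set.univ).IsPrime := irr_iff.1 ⟨h.dom, h.ne⟩

theorem var_cdim (h : X.IsVar n) : X.cdim Set.univ = (n + Fintype.card X.J : ℕ) :=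
  cdim_univ.trans h.dim

theorem irr_sub (hZ : X.Stab Z) : (X.sub Z hZ).Irr ↔ (X.van Z).IsPrime := by
  rw [irr_iff, ← van_prime_incl, Set.image_univ, range_incl, van_zer_van]

theorem isVar_sub (hX : X.IsProj) (hZ : X.Stab Z) : (X.sub Z hZ).IsVar n ↔
    (X.van Z).IsPrime ∧ X.cdim Z = (n + Fintype.card X.J : ℕ) := by
  rw [isVar_iff, irr_sub]
  exact and_iff_right (hX.sub Z hZ)

theorem isVar_adj (h : X.IsVar n) (ι : Type) [Fintype ι] [Nonempty ι]
    (hm : m + 1 = n + Fintype.card ι) : (X.adj ι fun _ => 0).IsVar m := by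
  refine isVar_iff.2 ⟨h.proj.adj ι, irr_adj ⟨h.dom, h.ne⟩, (dim_adj h.dim).trans ?_⟩
  rw [show Fintype.card (X.adj ι fun _ => 0).J = _ from Fintype.card_option (α := X.J)]
  congr 1
  omega

theorem isVar_of_bij {f : Mor X Y} (h : X.IsVar n) (hY : Y.IsProj) (hi : f.Inj) (hs : f.Surj) :
    Y.IsVar n :=
  isVar_iff.2 ⟨hY, irr_of_surj hs ⟨h.dom, h.ne⟩, (hasDim_iff h.proj.free hY.free hi hs).1 h.dim⟩

/-- a proper closed subset of a variety has smaller dimension -/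
theorem var_drop (h : X.IsVar n) {a : X.R} (ha : a ≠ 0) (hZ : ∀ z ∈ Z, z.1 a = 0) :
    X.cdim Z < (n + Fintype.card X.J : ℕ) :=
  have := var_prime h
  cdim_drop (van_anti (Set.subset_univ Z)) (by rwa [van_univ]) hZ (var_cdim h).le

/-- a closed subset of full dimension is everything -/
theorem eq_univ_of_cdim (h : X.IsVar n) (hZ : X.Clo Z)
    (hd : ((n + Fintype.card X.J : ℕ) : WithBot ℕ∞) ≤ X.cdim Z) : Z = Set.univ := by
  have := var_prime h
  refine Set.eq_univ_of_forall fun z => hZ z ?_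
  rw [van_eq_of_cdim (van_anti (Set.subset_univ Z)) ((var_cdim h).trans_le hd)]
  exact fun r hr => hr z trivial

end Vale.Agent.P297Z.Dim
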