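import Vale.Agent.P297Z.Dim.Orb
import Vale.Agent.P297Z.K.Proj

/-!
# Closed subspaces, generic images, irreducibility, linear fibres
-/

set_option linter.all false

noncomputable section

namespace Vale.Agent.P297Z.Dim

variable {X Y : Spc} {Z W : Set X.Pt} {c d e n : ℕ}

/-! ### closed subspaces -/

/-- a point of the closed subspace -/
def subPt (hZ : X.Stab Z) (z : X.Pt) (hz : z ∈ zer X (X.van Z)) : (X.sub Z hZ).Pt :=
  ⟨Ideal.Quotient.liftₐ (X.van Z) z.1 hz, (Spc.sub_pt X Z hZ _).2 z.2⟩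

theorem incl_subPt (hZ : X.Stab Z) (z : X.Pt) (hz : z ∈ zer X (X.van Z)) :
    (Mor.incl X Z hZ).onPt (subPt hZ z hz) = z := rfl

theorem incl_inj (hZ : X.Stab Z) : Function.Injective (Mor.incl X Z hZ).onPt := fun w w' h =>
  Subtype.ext (AlgHom.ext fun v => by
    obtain ⟨r, rfl⟩ := Ideal.Quotient.mk_surjective v
    exact congrArg (fun z : X.Pt => z.1 r) h)

theorem range_incl (hZ : X.Stab Z) : Set.range (Mor.incl X Z hZ).onPt = zer X (X.van Z) := by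
  refine subset_antisymm ?_ fun z hz => ⟨subPt hZ z hz, rfl⟩
  rintro _ ⟨w, rfl⟩ r hr
  exact (congrArg w.1 (Ideal.Quotient.eq_zero_iff_mem.2 hr)).trans (map_zero _)

theorem exists_incl (hZ : X.Stab Z) {z : X.Pt} (hz : z ∈ Z) : ∃ w, (Mor.incl X Z hZ).onPt w = z :=
  ⟨subPt hZ z (subset_zer_van hz), rfl⟩

theorem incl_toSub (f : Mor Y X) (hZ : X.Stab Z) (h : ∀ w, f.onPt w ∈ Z) :
    (Mor.incl X Z hZ).comp (f.toSub Z hZ h) = f := Mor.eq_of (fun _ => rfl) fun _ => rfl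

theorem incl_toSub_onPt (f : Mor Y X) (hZ : X.Stab Z) (h : ∀ w, f.onPt w ∈ Z) (y : Y.Pt) :
    (Mor.incl X Z hZ).onPt ((f.toSub Z hZ h).onPt y) = f.onPt y := rfl

theorem cdim_image_inj (f : Mor X Y) (hZ : LC X Z) (h0 : W ⊆ Z) (hf : Set.InjOn f.onPt Z) :
    Y.cdim (f.onPt '' W) = X.cdim W :=
  le_antisymm (cdim_image f W) (le_of_forall_lt fun _ h => cdim_lt_add (e := 0) f hZ h0
    (fun _ _ => cdim_subsingleton fun _ ha _ hb => hf ha.1 hb.1 (ha.2.trans hb.2.symm)) h)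

theorem cdim_incl (hZ : X.Stab Z) (V : Set (X.sub Z hZ).Pt) :
    X.cdim ((Mor.incl X Z hZ).onPt '' V) = (X.sub Z hZ).cdim V :=
  cdim_image_inj _ (.of_clo clo_univ) (Set.subset_univ _) (incl_inj hZ).injOn

theorem cdim_preimage_incl (hZ : X.Stab Z) (h : W ⊆ Z) :
    (X.sub Z hZ).cdim ((Mor.incl X Z hZ).onPt ⁻¹' W) = X.cdim W := by
  rw [← cdim_incl, Set.image_preimage_eq_of_subset (range_incl hZ ▸ h.trans subset_zer_van)]

theorem van_prime_incl (hZ : X.Stab Z) (V : Set (X.sub Z hZ).Pt) :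
    (X.van ((Mor.incl X Z hZ).onPt '' V)).IsPrime ↔ ((X.sub Z hZ).van V).IsPrime := by
  refine ⟨fun h => ?_, fun h => van_image_prime _⟩
  rw [van_image] at h
  rw [← Ideal.map_comap_of_surjective (Mor.incl X Z hZ).φ Ideal.Quotient.mk_surjective
    ((X.sub Z hZ).van V)]
  exact Ideal.map_isPrime_of_surjective (H := h) Ideal.Quotient.mk_surjective fun r hr =>
    Ideal.mem_comap.2 (RingHom.mem_ker.1 hr ▸ Ideal.zero_mem _)

theorem free_sub (hX : X.Free) (hZ : X.Stab Z) : (X.sub Z hZ).Free := fun w =>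
  eq_top_iff.2 ((hX ((Mor.incl X Z hZ).onPt w)).ge.trans (AddSubgroup.closure_mono
    fun _ ⟨r, hr, h⟩ => ⟨_, Spc.mk_mem hZ hr, h⟩))

/-! ### generic images -/

theorem LC.ne (a : X.R) : LC X {z | z.1 a ≠ 0} := fun _ hz => ⟨a, hz, fun _ _ h => h⟩

theorem van_inter_ne [h : (X.van Z).IsPrime] {a : X.R} (ha : a ∉ X.van Z) :
    X.van (Z ∩ {z | z.1 a ≠ 0}) = X.van Z :=
  le_antisymm (fun r hr => (h.mem_or_mem (x := a) fun z hz => by
    rw [map_mul]
    by_cases h1 : z.1 a = 0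
    · rw [h1, zero_mul]
    · rw [hr z ⟨hz, h1⟩, mul_zero]).resolve_left ha) (van_anti Set.inter_subset_left)

/-- the image of an irreducible locally closed set contains a dense open part of its closure -/
theorem generic_image (f : Mor X Y) (hZ : LC X Z) [hp : (X.van Z).IsPrime] :
    ∃ t ∉ Y.van (f.onPt '' Z), ∀ y ∈ zer Y (Y.van (f.onPt '' Z)), y.1 t ≠ 0 → y ∈ f.onPt '' Z := by
  obtain ⟨z, hz⟩ := Set.nonempty_iff_ne_empty.2 (mt van_eq_top.2 hp.ne_top)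
  obtain ⟨a, ha, h1⟩ := hZ z hz
  obtain ⟨b, hb, hb'⟩ := z.2
  have hd : Disjoint (Submonoid.powers (a * b) : Set X.R) (X.van Z) := by
    refine Set.disjoint_left.2 ?_
    rintro _ ⟨n, rfl⟩ h
    exact mul_ne_zero ha hb' ((map_mul _ _ _).symm.trans (hp.mem_of_pow_mem n h z hz))
  let B := Localization.Away (a * b)
  have : Algebra.FiniteType ℂ B :=
    .trans X.ft (IsLocalization.finiteType_of_monoid_fg (.powers (a * b)) _)
  have := IsLocalization.isPrime_of_isPrime_disjoint _ B _ hp hd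
  have h2 : ∀ r, algebraMap X.R B r ∈ (X.van Z).map (algebraMap X.R B) ↔ r ∈ X.van Z := fun r =>
    Ideal.ext_iff.1 (IsLocalization.under_map_of_isPrime_disjoint _ B hp hd) r
  obtain ⟨t, ht, h3⟩ := generic_fibre_pt ((IsScalarTower.toAlgHom ℂ X.R B).comp f.φ)
    ((X.van Z).map (algebraMap X.R B))
  rw [van_image]
  refine ⟨t, fun h => ht ((h2 _).2 h), fun y hy hyt => ?_⟩
  obtain ⟨w, hw, h4⟩ := (h3 y.1 hyt).2 fun r hr => hy r ((h2 _).1 hr)
  have h5 : w.comp (IsScalarTower.toAlgHom ℂ X.R B) (a * b) ≠ 0 :=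
    ((IsLocalization.Away.algebraMap_isUnit (S := B) (a * b)).map w).ne_zero
  rw [map_mul] at h5
  exact ⟨⟨w.comp (IsScalarTower.toAlgHom ℂ X.R B), b, hb, right_ne_zero_of_mul h5⟩,
    h1 _ (fun r hr => hw _ ((h2 r).2 hr)) (left_ne_zero_of_mul h5), Subtype.ext h4⟩

theorem generic_img (f : Mor X Y) (hZ : LC X Z) [(X.van Z).IsPrime] :
    ∃ t ∉ Y.van (f.img Z), ∀ y ∈ zer Y (Y.van (f.img Z)), y.1 t ≠ 0 → y ∈ f.img Z := by
  obtain ⟨F, hF⟩ := exists_twM f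
  have := van_box_prime (Z := Z) (V := (Set.univ : Set (torus Y.J).Pt))
  exact tw_image hF Z ▸ generic_image F ((hZ.preimage _).inter (.of_clo clo_univ))

theorem van_fibre_le (f : Mor X Y) (hZ : LC X Z) {z : X.Pt} (hz : z ∈ Z) {Q : Ideal X.R}
    [hQ : Q.IsPrime] (h1 : X.van Z ≤ Q) (h2 : (RingHom.ker (f.onPt z).1).map f.φ ≤ Q)
    (h3 : z ∈ zer X Q) : X.van {x ∈ Z | f.onPt x = f.onPt z} ≤ Q := fun r hr => by
  obtain ⟨a, ha, h4⟩ := hZ z hz
  by_contra o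
  obtain ⟨z', h7, h8⟩ := exists_zer (not_b_le h3) (hQ.mul_notMem (fun h => ha (h3 _ h)) o)
  rw [map_mul] at h8
  refine right_ne_zero_of_mul h8 (hr z' ⟨h4 z' (zer_anti h1 h7) (left_ne_zero_of_mul h8),
    Subtype.ext (pt_ext fun r hr => ?_).symm⟩)
  exact h7 _ (h2 (Ideal.mem_map_of_mem _ hr))

/-- irreducible image, irreducible small fibres, big components: irreducible -/
theorem van_prime_of_fibres (f : Mor X Y) (hZ : LC X Z) [hp : (Y.van (f.onPt '' Z)).IsPrime]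
    (hd : Y.cdim (f.onPt '' Z) ≤ d)
    (hf : ∀ z ∈ Z, (X.van {x ∈ Z | f.onPt x = f.onPt z}).IsPrime ∧
      X.cdim {x ∈ Z | f.onPt x = f.onPt z} ≤ e)
    (hc : ∀ P ∈ (X.van Z).minimalPrimes, d + e ≤ td ℂ (X.R ⧸ P)) : (X.van Z).IsPrime := by
  have k1 : ∀ P ∈ (X.van Z).minimalPrimes,
      Y.van (f.onPt '' (Z ∩ zer X P)) = Y.van (f.onPt '' Z) := fun P hP => by
    have := hP.1.1
    refine van_eq_of_cdim (van_anti (Set.image_mono Set.inter_subset_left))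
      (hd.trans (not_lt.1 fun h => ?_))
    exact (hc P hP).not_gt (cdim_lt_iff'.1 (cdim_lt_add f hZ Set.inter_subset_left
      (fun z hz => (hf z hz.1).2) h) P this (van_inter_zer hP).le)
  have k2 : ∀ P ∈ (X.van Z).minimalPrimes, ∀ z ∈ Z ∩ zer X P,
      {x ∈ Z | f.onPt x = f.onPt z} ⊆ zer X P := fun P hP z hz => by
    have := hP.1.1
    obtain ⟨Q, hQ, h2, h3⟩ := exists_fibre_comp f.φ z.1 hz.2
    have := hQ.1.1
    obtain ⟨h4, h5⟩ := hf z hz.1
    have h6 := (td_le_cdim (p := P.comap f.φ)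
      (by rw [← k1 P hP, van_image, van_inter_zer hP])).trans hd
    have h7 := hc P hP
    rw [cdim_prime] at h5
    rw [Nat.cast_le] at h5 h6
    exact le_van_iff.1 ((le_sup_left.trans hQ.1.2).trans (eq_of_td_le (k := ℂ) (van_fibre_le f hZ
      hz.1 (hP.1.2.trans (le_sup_left.trans hQ.1.2)) (le_sup_right.trans hQ.1.2) h2)
      (by omega)).ge)
  obtain ⟨_, z, hz, rfl⟩ := Set.nonempty_iff_ne_empty.2 (mt van_eq_top.2 hp.ne_top)
  obtain ⟨P, hP, -⟩ := exists_comp (subset_zer_van hz)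
  suffices h : P ≤ X.van Z from le_antisymm h hP.1.2 ▸ hP.1.1
  rw [← van_radical, ← Ideal.sInf_minimalPrimes]
  refine le_sInf fun P' hP' c hc => by_contra fun o => ?_
  have : (X.van (Z ∩ zer X P)).IsPrime := (van_inter_zer hP).symm ▸ hP.1.1
  obtain ⟨t, ht, h1⟩ := generic_image f (hZ.inter (.of_clo (clo_zer (I := P))))
  rw [k1 P hP] at ht h1
  obtain ⟨x, hx, -, h2⟩ := dense hP' (hP'.1.1.mul_notMem o (y := f.φ t) fun h => ht (by
    rw [← k1 P' hP', van_image, van_inter_zer hP']; exact h))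
  rw [map_mul] at h2
  obtain ⟨z', hz', h3⟩ := h1 _ (subset_zer_van ⟨x, hx, rfl⟩) (right_ne_zero_of_mul h2)
  exact left_ne_zero_of_mul h2 (k2 P hP z' hz' ⟨hx, h3.symm⟩ c hc)

/-! ### projective bundles -/

section adj

variable {ι : Type} [Fintype ι] [Nonempty ι] {δ : ι → X.J → ℤ}

theorem adj_pt_ext {w w' : (X.adj ι δ).Pt}
    (h1 : (Mor.adjPr X ι δ).onPt w = (Mor.adjPr X ι δ).onPt w')
    (h2 : ∀ i, w.1 (MvPolynomial.X i : MvPolynomial ι X.R) =
      w'.1 (MvPolynomial.X i : MvPolynomial ι X.R)) : w = w' :=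
  Subtype.ext (AlgHom.coe_ringHom_injective (MvPolynomial.ringHom_ext (R := X.R) (σ := ι)
    (fun r => congrArg (fun z : X.Pt => z.1 r) h1) h2))

theorem exists_adj_pt (δ : ι → X.J → ℤ) (x : X.Pt) {y : ι → ℂ} (hy : y ≠ 0) :
    ∃ w : (X.adj ι δ).Pt, (Mor.adjPr X ι δ).onPt w = x ∧
      ∀ i, w.1 (MvPolynomial.X i : MvPolynomial ι X.R) = y i :=
  ⟨⟨MvPolynomial.aevalTower x.1 y, (Spc.adj_pt X ι δ _).2
      (by simpa using And.intro x.2 (Function.ne_iff.1 hy))⟩,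
    Subtype.ext (AlgHom.ext fun r => MvPolynomial.aevalTower_C _ _ r),
    fun i => MvPolynomial.aevalTower_X _ _ i⟩

theorem adj_ne (w : (X.adj ι δ).Pt) :
    (fun i => w.1 (MvPolynomial.X i : MvPolynomial ι X.R)) ≠ 0 :=
  Function.ne_iff.2 ((Spc.adj_pt X ι δ w.1).1 w.2).2

theorem dim_adj (h : ringKrullDim X.R = n) :
    ringKrullDim (X.adj ι δ).R = (n + Fintype.card ι : ℕ) := by
  refine (MvPolynomial.ringKrullDim_of_isNoetherianRing (R := X.R)).trans ?_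
  rw [h, Nat.card_eq_fintype_card]
  rfl

theorem irr_adj (h : X.Irr) : (X.adj ι δ).Irr := by
  obtain ⟨_, ⟨x⟩⟩ := h
  obtain ⟨w, -⟩ := exists_adj_pt δ x (y := 1) one_ne_zero
  exact ⟨inferInstanceAs (IsDomain (MvPolynomial ι X.R)), ⟨w⟩⟩

theorem irr_pt (J : Type) [Fintype J] [DecidableEq J] : (Spc.pt J).Irr :=
  ⟨inferInstanceAs (IsDomain ℂ), ⟨⟨AlgHom.id ℂ ℂ, (1 : ℂ), trivial, one_ne_zero⟩⟩⟩

theorem dim_pt (J : Type) [Fintype J] [DecidableEq J] : ringKrullDim (Spc.pt J).R = (0 : ℕ) :=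
  ringKrullDim_eq_zero_of_field ℂ

theorem pt_subsingleton (J : Type) [Fintype J] [DecidableEq J] (x y : (Spc.pt J).Pt) : x = y :=
  Subtype.ext (AlgHom.ext fun r => (x.1.commutes r).trans (y.1.commutes r).symm)

/-- the linear subspaces of the fibres -/
theorem adj_fibre (δ : ι → X.J → ℤ) (x : X.Pt) {K : Submodule ℂ (ι → ℂ)} (hK : K ≠ ⊥)
    {L : Set (X.adj ι δ).Pt} (hL : ∀ w, w ∈ L ↔ (Mor.adjPr X ι δ).onPt w = x ∧
      (fun i => w.1 (MvPolynomial.X i : MvPolynomial ι X.R)) ∈ K) :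
    ((X.adj ι δ).van L).IsPrime ∧ (X.adj ι δ).cdim L = (Module.finrank ℂ K : ℕ) := by
  let b := Module.finBasis ℂ K
  have : Nonempty (Fin (Module.finrank ℂ K)) :=
    ⟨⟨0, Nat.pos_of_ne_zero fun h => hK (Submodule.finrank_eq_zero.1 h)⟩⟩
  let P := (Spc.pt Empty).adj (Fin (Module.finrank ℂ K)) fun _ => 0
  let v : Fin (Module.finrank ℂ K) → P.R := MvPolynomial.X (R := ℂ)
  have h0 : ∀ (w : P.Pt) i, w.1 (∑ c, (b c).1 i • v c) = (b.equivFun.symm fun c => w.1 (v c)).1 i :=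
    fun w i => by simp [mul_comm]
  let G : Mor P (X.adj ι δ) := (cst P x).toAdj ι δ (fun j => j.elim 1 0)
    (fun i => ∑ c, (b c).1 i • v c)
    (fun i => Submodule.sum_mem _ fun c _ => Submodule.smul_mem _ _ (by
      show v c ∈ P.wt (0 + _)
      rw [zero_add]
      exact Spc.X_mem _ _ _ c))
    fun w => by
      simp only [h0]
      exact Function.ne_iff.1 fun h => adj_ne w (b.equivFun.symm.map_eq_zero_iff.1 (Subtype.ext h))
  have h1 : ∀ w, (Mor.adjPr X ι δ).onPt (G.onPt w) = x := fun w => Subtype.ext (AlgHom.ext fun r =>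
    (congrArg w.1 (MvPolynomial.aevalTower_C _ _ r)).trans (w.1.commutes _))
  have h2 : ∀ w i, (G.onPt w).1 (MvPolynomial.X i : MvPolynomial ι X.R) =
      (b.equivFun.symm fun c => w.1 (v c)).1 i := fun w i =>
    (congrArg w.1 (MvPolynomial.aevalTower_X _ _ i)).trans (h0 w i)
  have h3 : G.onPt '' Set.univ = L := by
    refine subset_antisymm ?_ fun w hw => ?_
    · rintro _ ⟨w, -, rfl⟩
      exact (hL _).2 ⟨h1 w, funext (h2 w) ▸ Subtype.property _⟩
    · obtain ⟨h4, h5⟩ := (hL w).1 hw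
      obtain ⟨u, -, hu⟩ := exists_adj_pt (X := Spc.pt Empty) (fun _ => 0) (irr_pt _).2.some
        (y := b.equivFun ⟨_, h5⟩) fun h => adj_ne w
          (congrArg Subtype.val (b.equivFun.map_eq_zero_iff.1 h))
      refine ⟨u, trivial, adj_pt_ext ((h1 u).trans h4.symm) fun i => ?_⟩
      rw [h2, show (fun c => u.1 (v c)) = _ from funext hu, LinearEquiv.symm_apply_apply]
  have := irr_iff.1 (irr_adj (δ := fun _ : Fin (Module.finrank ℂ K) => 0) (irr_pt Empty))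
  rw [← h3]
  refine ⟨van_image_prime G, ?_⟩
  rw [cdim_image_inj G (.of_clo clo_univ) subset_rfl fun w _ w' _ h =>
    adj_pt_ext (pt_subsingleton _ _ _) (congrFun (b.equivFun.symm.injective (Subtype.ext
      (funext fun i => (h2 w i).symm.trans (h ▸ h2 w' i))))), cdim_univ, dim_adj (dim_pt _)]
  simp

end adj

end Vale.Agent.P297Z.Dim
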