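import Vale.Agent.P297Z.Dim.Pt
import Vale.Agent.P297Z.Hb.DegDefs

/-!
# Orbits and their dimension
-/

set_option linter.all false

open scoped TensorProduct nonZeroDivisors

noncomputable section

namespace Vale.Agent.P297Z.Dim

section torus

variable (J : Type) [Fintype J]

/-- the coordinate ring of the torus -/
abbrev TR : Type := Localization.Away (∏ j, (MvPolynomial.X j : MvPolynomial J ℂ))

theorem pow_le : Submonoid.powers (∏ j, (MvPolynomial.X j : MvPolynomial J ℂ)) ≤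
    (MvPolynomial J ℂ)⁰ :=
  powers_le_nonZeroDivisors_of_noZeroDivisors
    (Finset.prod_ne_zero_iff.2 fun j _ => MvPolynomial.X_ne_zero j)

instance : IsDomain (TR J) := IsLocalization.isDomain_localization (pow_le J)

instance : Algebra.FiniteType ℂ (TR J) :=
  .trans (S := MvPolynomial J ℂ) inferInstance
    (IsLocalization.finiteType_of_monoid_fg (.powers (∏ j, MvPolynomial.X j)) _)

/-- the torus, as a space without action -/
def torus : Spc where
  R := TR J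
  J := Empty
  act := fun _ => AlgHom.id ℂ _
  span := iSup_wt_eq_top fun v => mem_iSup_wt (γ := 0) fun g => by rw [chr_zero, one_smul]; rfl
  b := ⊤
  b_act := fun _ _ _ => Submodule.mem_top
  sep := fun r h => by
    have := mem_radical (k := ℂ) (I := ⊥) fun z _ => h z ⟨1, Submodule.mem_top, by simp⟩
    rwa [Ideal.radical_bot_of_noZeroDivisors] at this

theorem cdim_torus : (torus J).cdim Set.univ = (Fintype.card J : ℕ) := by
  have := (faithfulSMul_iff_algebraMap_injective _ (TR J)).2 (IsLocalization.injective _ (pow_le J))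
  rw [cdim_univ]
  refine (dim_eq_td (k := ℂ) (R := TR J)).trans ?_
  rw [← td_localization (R := MvPolynomial J ℂ) (.powers (∏ j, MvPolynomial.X j)), td_mvPolynomial,
    td_self, zero_add]

instance : ((torus J).van Set.univ).IsPrime := by
  rw [van_univ]
  exact Ideal.isPrime_bot (α := TR J)

variable {J}

/-- the coordinates -/
def tu (j : J) : (torus J).Rˣ :=
  (IsLocalization.Away.isUnit_of_dvd (S := TR J) (∏ j, (MvPolynomial.X j : MvPolynomial J ℂ))
    (Finset.dvd_prod_of_mem _ (Finset.mem_univ j))).unit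

/-- the coordinates of a point -/
def tco (w : (torus J).Pt) (j : J) : ℂˣ := Units.map (w.1 : (torus J).R →* ℂ) (tu j)

theorem tco_surj (g : J → ℂˣ) : ∃ w, tco w = g := by
  have h : IsUnit (MvPolynomial.aeval (R := ℂ) (fun j => (g j : ℂ)) (∏ j, MvPolynomial.X j)) := by
    simp only [map_prod, MvPolynomial.aeval_X]
    exact IsUnit.mk0 _ (Finset.prod_ne_zero_iff.2 fun j _ => (g j).ne_zero)
  let z : TR J →ₐ[ℂ] ℂ := IsLocalization.Away.liftAlgHom _ h
  refine ⟨⟨z, (1 : TR J), trivial, (map_one z).trans_ne one_ne_zero⟩, funext fun j => Units.ext ?_⟩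
  exact (IsLocalization.Away.lift_eq (S := TR J) _ h _).trans (MvPolynomial.aeval_X _ j)

theorem tco_inj {w w' : (torus J).Pt} (h : tco w = tco w') : w = w' := by
  refine Subtype.ext (AlgHom.coe_ringHom_injective (IsLocalization.ringHom_ext (S := TR J)
    (.powers (∏ j, (MvPolynomial.X j : MvPolynomial J ℂ))) (MvPolynomial.ringHom_ext
      (fun c => (w.1.commutes c).trans (w'.1.commutes c).symm) fun j => ?_)))
  exact congrArg Units.val (congrFun h j)

end torus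

variable {X Y : Spc} {Z W : Set X.Pt} {c d e n : ℕ}

/-- the points of the torus with values in an algebra act -/
theorem exists_tw {B : Type} [CommRing B] [Algebra ℂ B] (φ : Y.R →ₐ[ℂ] B) (u : Y.J → Bˣ) :
    ∃ ψ : Y.R →ₐ[ℂ] B, ∀ γ, ∀ r ∈ Y.wt γ, ψ r = (∏ j, u j ^ γ j : Bˣ) * φ r := by
  classical
  let L : Y.R →ₗ[ℂ] B := (DirectSum.toModule ℂ (Y.J → ℤ) B fun γ =>
    LinearMap.mulLeft ℂ ((∏ j, u j ^ γ j : Bˣ) : B) ∘ₗ φ.toLinearMap ∘ₗ (Y.wt γ).subtype) ∘ₗ
    (LinearEquiv.ofBijective (DirectSum.coeLinearMap Y.wt) (wt_internal Y.span)).symm.toLinearMap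
  have hL : ∀ γ, ∀ r ∈ Y.wt γ, L r = (∏ j, u j ^ γ j : Bˣ) * φ r := fun γ r hr => by
    have : (LinearEquiv.ofBijective (DirectSum.coeLinearMap Y.wt) (wt_internal Y.span)).symm r =
        DirectSum.lof ℂ _ (fun γ => Y.wt γ) γ ⟨r, hr⟩ :=
      (LinearEquiv.symm_apply_eq _).2 (DirectSum.coeLinearMap_of Y.wt γ ⟨r, hr⟩).symm
    exact (congrArg _ this).trans (DirectSum.toModule_lof _ _ _)
  refine ⟨AlgHom.ofLinearMap L (by simp [hL 0 1 Y.one_mem]) fun a b => ?_, hL⟩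
  refine Y.induction (P := fun a => L (a * b) = L a * L b) (by simp) (fun γ a ha => ?_)
    (fun x y hx hy => by rw [add_mul, map_add, map_add, add_mul, hx, hy]) a
  refine Y.induction (P := fun b => L (a * b) = L a * L b) (by simp) (fun δ b hb => ?_)
    (fun x y hx hy => by rw [mul_add, map_add, map_add, mul_add, hx, hy]) b
  rw [hL _ _ (Spc.mul_mem ha hb), hL _ _ ha, hL _ _ hb, map_mul]
  simp only [Pi.add_apply, zpow_add, Finset.prod_mul_distrib, Units.val_mul]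
  ring

/-- the map `(x, g) ↦ g • f x` -/
theorem exists_twM (f : Mor X Y) : ∃ F : Mor (X.prod (torus Y.J)) Y, ∀ w, F.onPt w =
    Spc.mv (f.onPt ((Mor.fst _ _).onPt w)) (tco ((Mor.snd _ _).onPt w)) := by
  obtain ⟨ψ, h⟩ := exists_tw (f.comp (Mor.fst X (torus Y.J))).φ
    fun j => Units.map ((Mor.snd X (torus Y.J)).φ : (torus Y.J).R →* _) (tu j)
  have h0 : ∀ γ : Y.J → ℤ, ((∏ j, Units.map ((Mor.snd X (torus Y.J)).φ : (torus Y.J).R →* _)
      (tu j) ^ γ j : (X.prod (torus Y.J)).Rˣ) : (X.prod (torus Y.J)).R) =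
      (Mor.snd X (torus Y.J)).φ (∏ j, tu j ^ γ j : (torus Y.J).Rˣ).1 := fun γ => by
    simp only [← map_zpow, ← map_prod]
    rfl
  have h1 : ∀ w : (X.prod (torus Y.J)).Pt, w.1.comp ψ =
      (Spc.mv (f.onPt ((Mor.fst _ _).onPt w)) (tco ((Mor.snd _ _).onPt w))).1 := fun w =>
    AlgHom.ext fun r => by
      refine Y.induction (P := fun r => (w.1.comp ψ) r = (Spc.mv _ _).1 r) (by simp)
        (fun γ r hr => ?_) (fun x y hx hy => by rw [map_add, map_add, hx, hy]) r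
      show w.1 (ψ r) = (f.onPt ((Mor.fst _ _).onPt w)).1 (Y.act _ r)
      rw [h γ r hr, Spc.mem_wt.1 hr, map_mul, map_smul, smul_eq_mul, h0]
      congr 1
      simp only [chr, tco, ← map_zpow, ← map_prod]
      rfl
  refine ⟨⟨ψ, (f.comp (Mor.fst _ _)).ρ, fun γ r hr => ?_, fun w => ?_⟩, fun w => Subtype.ext (h1 w)⟩
  · rw [h γ r hr, h0, ← zero_add ((f.comp (Mor.fst _ _)).ρ γ), ← (Mor.snd X (torus Y.J)).ρ.map_zero]
    exact Spc.mul_mem ((Mor.snd _ _).wt_map _ _ fun g => by rw [chr_zero, one_smul]; rfl)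
      ((f.comp (Mor.fst _ _)).wt_map γ r hr)
  · have := (Spc.mv (f.onPt ((Mor.fst _ _).onPt w)) (tco ((Mor.snd _ _).onPt w))).2
    rwa [← h1] at this

theorem mv_inj (hY : Y.Free) {y : Y.Pt} {g g' : Y.J → ℂˣ} (h : Spc.mv y g = Spc.mv y g') :
    g = g' := by
  refine chr_ext fun γ => ?_
  have hγ : γ ∈ AddSubgroup.closure {γ : Y.J → ℤ | ∃ r ∈ Y.wt γ, y.1 r ≠ 0} := by
    rw [hY y]; trivial
  induction hγ using AddSubgroup.closure_induction with
  | mem γ hγ =>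
    obtain ⟨r, hr, h1⟩ := hγ
    have h2 : y.1 (Y.act g r) = y.1 (Y.act g' r) := congrArg (fun z : Y.Pt => z.1 r) h
    rw [Spc.mem_wt.1 hr, Spc.mem_wt.1 hr, map_smul, map_smul] at h2
    exact mul_right_cancel₀ h1 h2
  | zero => simp
  | add a b _ _ ha hb => rw [chr_add, chr_add, ha, hb]
  | neg a _ ha => rw [chr_neg, chr_neg, ha]

theorem orb_iff_mv {y y' : Y.Pt} : Y.Orb y y' ↔ ∃ g, Spc.mv y g = y' :=
  ⟨fun ⟨g, h⟩ => ⟨g, Subtype.ext h.symm⟩, fun ⟨g, h⟩ => h ▸ Spc.orb_mv y g⟩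

section tw

variable {f : Mor X Y} {F : Mor (X.prod (torus Y.J)) Y} (hF : ∀ w, F.onPt w =
    Spc.mv (f.onPt ((Mor.fst _ _).onPt w)) (tco ((Mor.snd _ _).onPt w)))
include hF

theorem tw_image (Z : Set X.Pt) : F.onPt '' box Z Set.univ = f.img Z := by
  refine subset_antisymm ?_ ?_
  · rintro _ ⟨w, hw, rfl⟩
    exact ⟨_, hw.1, hF w ▸ Spc.orb_mv _ _⟩
  · rintro y ⟨x, hx, h⟩
    obtain ⟨g, rfl⟩ := orb_iff_mv.1 h
    obtain ⟨t, rfl⟩ := tco_surj g
    exact ⟨pair x t, pair_mem.2 ⟨hx, trivial⟩, by rw [hF, fst_pair, snd_pair]⟩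

theorem tw_fibre (Z : Set X.Pt) (w : (X.prod (torus Y.J)).Pt) :
    (Mor.fst _ _).onPt '' {w' ∈ box Z Set.univ | F.onPt w' = F.onPt w} =
      {x ∈ Z | Y.Orb (f.onPt x) (f.onPt ((Mor.fst _ _).onPt w))} := by
  have h : ∀ w, Y.Orb (f.onPt ((Mor.fst _ _).onPt w)) (F.onPt w) := fun w => hF w ▸ Spc.orb_mv _ _
  refine subset_antisymm ?_ ?_
  · rintro _ ⟨w', hw', rfl⟩
    exact ⟨hw'.1.1, (h w').trans (hw'.2 ▸ (h w).symm)⟩
  · rintro x ⟨hx, h1⟩
    obtain ⟨g, h2⟩ := orb_iff_mv.1 (h1.trans (h w))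
    obtain ⟨t, rfl⟩ := tco_surj g
    exact ⟨pair x t, ⟨pair_mem.2 ⟨hx, trivial⟩, by rw [hF, fst_pair, snd_pair, h2]⟩, fst_pair _ _⟩

end tw

theorem van_img_prime (f : Mor X Y) [(X.van Z).IsPrime] : (Y.van (f.img Z)).IsPrime := by
  obtain ⟨F, hF⟩ := exists_twM f
  have := van_box_prime (Z := Z) (V := (Set.univ : Set (torus Y.J).Pt))
  exact tw_image hF Z ▸ van_image_prime F

/-- small fibres and small image: small source -/
theorem orb_lt (f : Mor X Y) (hY : Y.Free) (hZ : LC X Z) (h0 : W ⊆ Z)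
    (hf : ∀ z ∈ W, X.cdim {x ∈ Z | Y.Orb (f.onPt x) (f.onPt z)} ≤ e)
    (hd : Y.cdim (f.img W) < d) (h : d + e ≤ c + Fintype.card Y.J) : X.cdim W < c := by
  obtain ⟨F, hF⟩ := exists_twM f
  refine not_le.1 fun h1 => ?_
  refine ((Nat.cast_le.2 h).trans (le_cdim_box h1 (cdim_torus _).ge)).not_gt
    (cdim_lt_add F (Z := box Z Set.univ) ((hZ.preimage _).inter (.of_clo clo_univ))
      (fun w hw => ⟨h0 hw.1, trivial⟩) (fun w hw => ?_) (tw_image hF W ▸ hd))
  refine cdim_le_add (e := 0) (Mor.fst _ _) (.of_clo (clo_preimage F (clo_singleton (F.onPt w))))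
    (fun _ h => h.2) (fun w' hw' => cdim_subsingleton fun a ha b hb => ?_)
    (tw_fibre hF Z w ▸ hf _ hw.1)
  have h2 := ha.2.trans hb.2.symm
  have h3 : F.onPt a = F.onPt b := ha.1.trans hb.1.symm
  rw [hF, hF, h2] at h3
  exact prod_pt_ext h2 (tco_inj (mv_inj hY h3))

/-- big fibres and big image: big source -/
theorem orb_ge (f : Mor X Y)
    (hf : ∀ z ∈ Z, (e : WithBot ℕ∞) ≤ X.cdim {x ∈ Z | Y.Orb (f.onPt x) (f.onPt z)})
    (hd : (d : WithBot ℕ∞) ≤ Y.cdim (f.img Z)) (h : c + Fintype.card Y.J ≤ d + e) :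
    (c : WithBot ℕ∞) ≤ X.cdim Z := by
  obtain ⟨F, hF⟩ := exists_twM f
  refine not_lt.1 fun h1 => (cdim_box_lt h1 (cdim_torus _).le).not_ge ((Nat.cast_le.2 h).trans
    (add_le_cdim F (fun w hw => ?_) (tw_image hF Z ▸ hd)))
  exact (hf _ hw.1).trans (tw_fibre hF Z w ▸ cdim_image _ _)

theorem img_id_singleton (y : Y.Pt) : (Mor.id Y).img {y} = {y' | Y.Orb y y'} :=
  Set.ext fun _ => ⟨by rintro ⟨_, rfl, h⟩; exact h, fun h => ⟨y, rfl, h⟩⟩

theorem van_orb_prime (y : Y.Pt) : (Y.van {y' | Y.Orb y y'}).IsPrime := by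
  have : (Y.van {y}).IsPrime := van_singleton y ▸ (ker_isMaximal y.1).isPrime
  exact img_id_singleton y ▸ van_img_prime _

theorem cdim_orb_le (y : Y.Pt) : Y.cdim {y' | Y.Orb y y'} ≤ (Fintype.card Y.J : ℕ) := by
  refine le_iff_lt_succ.2 (not_le.1 fun h => ?_)
  have := orb_ge (c := 1) (e := 0) (Z := {y}) (Mor.id Y) (fun z hz => not_lt.1 fun h1 =>
    (cdim_lt_zero.1 h1).le ⟨hz, .refl _⟩) (img_id_singleton y ▸ h) (by omega)
  rw [cdim_singleton, Nat.cast_le] at this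
  omega

theorem cdim_orb (hY : Y.Free) (y : Y.Pt) : Y.cdim {y' | Y.Orb y y'} = (Fintype.card Y.J : ℕ) := by
  refine le_antisymm (cdim_orb_le y) (not_lt.1 fun h => ?_)
  exact (cdim_lt_zero.1 (orb_lt (e := 0) (Mor.id Y) hY (.of_clo (clo_singleton y)) subset_rfl
    (fun z hz => (cdim_mono (Set.sep_subset _ _)).trans (cdim_singleton y).le)
    (img_id_singleton y ▸ h) (by omega))).le rfl

theorem card_le_cdim (hX : X.Free) (hZ : X.Stab Z) (h : Z.Nonempty) :
    ((Fintype.card X.J : ℕ) : WithBot ℕ∞) ≤ X.cdim Z :=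
  let ⟨z, hz⟩ := h
  (cdim_orb hX z).ge.trans (cdim_mono (hZ z hz))

theorem cdim_stab_lt (hX : X.Free) (hZ : X.Stab Z) (h : X.cdim Z < (Fintype.card X.J : ℕ)) :
    Z = ∅ := Set.not_nonempty_iff_eq_empty.1 fun h1 => h.not_ge (card_le_cdim hX hZ h1)

/-- the image is not bigger than the source -/
theorem cdim_img_lt (f : Mor X Y) (hX : X.Free) (hZ : X.Stab Z)
    (h : X.cdim Z < (n + Fintype.card X.J : ℕ)) : Y.cdim (f.img Z) < (n + Fintype.card Y.J : ℕ) :=
  not_le.1 fun h1 => h.not_ge (orb_ge f (fun z hz => (cdim_orb hX z).ge.trans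
    (cdim_mono fun x hx => ⟨hZ z hz x hx, (f.orb hx).symm⟩)) h1 (by omega))

/-- all fibres have the same dimension -/
theorem cdim_eq_iff (f : Mor X Y) (hY : Y.Free) (hZ : LC X Z)
    (hf : ∀ z ∈ Z, X.cdim {x ∈ Z | Y.Orb (f.onPt x) (f.onPt z)} = e) :
    X.cdim Z = (n + e : ℕ) ↔ Y.cdim (f.img Z) = (n + Fintype.card Y.J : ℕ) :=
  ⟨fun h => le_antisymm (le_iff_lt_succ.2 (not_le.1 fun h1 => (le_iff_lt_succ.1 h.le).not_ge
      (orb_ge f (fun z hz => (hf z hz).ge) h1 (by omega))))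
    (not_lt.1 fun h1 => h.ge.not_gt
      (orb_lt f hY hZ subset_rfl (fun z hz => (hf z hz).le) h1 (by omega))),
  fun h => le_antisymm (le_iff_lt_succ.2 (orb_lt f hY hZ subset_rfl (fun z hz => (hf z hz).le)
      (le_iff_lt_succ.1 h.le) (by omega))) (orb_ge f (fun z hz => (hf z hz).ge) h.ge (by omega))⟩

/-- a map which is one to one on the orbits of a stable set preserves its dimension -/
theorem cdim_inj_iff (f : Mor X Y) (hX : X.Free) (hY : Y.Free) (hZ : LC X Z) (hs : X.Stab Z)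
    (hf : ∀ z ∈ Z, ∀ x ∈ Z, Y.Orb (f.onPt z) (f.onPt x) → X.Orb z x) :
    X.cdim Z = (n + Fintype.card X.J : ℕ) ↔ Y.cdim (f.img Z) = (n + Fintype.card Y.J : ℕ) :=
  cdim_eq_iff f hY hZ fun z hz => by
    rw [← cdim_orb hX z]
    exact congrArg _ (Set.ext fun x =>
      ⟨fun h => hf z hz x h.1 h.2.symm, fun h => ⟨hs z hz x h, (f.orb h).symm⟩⟩)

theorem irr_iff : X.Irr ↔ (X.van Set.univ).IsPrime := by
  refine ⟨fun h => have := h.1; van_univ (X := X) ▸ Ideal.isPrime_bot, fun h => ⟨?_, ?_⟩⟩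
  · rw [van_univ] at h
    exact IsDomain.of_bot_isPrime _
  · exact Set.nonempty_iff_univ_nonempty.2
      (Set.nonempty_iff_ne_empty.2 (mt van_eq_top.2 h.ne_top))

theorem img_univ {f : Mor X Y} (h : f.Surj) : f.img Set.univ = Set.univ :=
  Set.eq_univ_of_forall fun y => let ⟨x, hx⟩ := h y; ⟨x, trivial, hx⟩

theorem irr_of_surj {f : Mor X Y} (h : f.Surj) (hX : X.Irr) : Y.Irr := by
  have := irr_iff.1 hX
  exact irr_iff.2 (img_univ h ▸ van_img_prime f)

theorem hasDim_iff {f : Mor X Y} (hX : X.Free) (hY : Y.Free) (hi : f.Inj) (hs : f.Surj) :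
    X.HasDim n ↔ Y.HasDim n := by
  have := cdim_inj_iff (n := n) f hX hY (.of_clo clo_univ) (fun _ _ _ _ => trivial)
    fun z _ x _ => hi z x
  rwa [img_univ hs, cdim_univ, cdim_univ] at this

end Vale.Agent.P297Z.Dim
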