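import Vale.Agent.P297Z.Dim.Fib
import Vale.Agent.P297Z.K.AG
import Vale.Agent.P297Z.K.Cat

/-!
# Sets of points of a space and their dimension
-/

set_option linter.all false

open scoped TensorProduct

namespace Vale.Agent.P297Z.Dim

/-- the zero set of an ideal -/
def zer (X : Spc) (I : Ideal X.R) : Set X.Pt := {z | ∀ r ∈ I, z.1 r = 0}

/-- locally closed -/
def LC (X : Spc) (Z : Set X.Pt) : Prop :=
  ∀ z ∈ Z, ∃ a, z.1 a ≠ 0 ∧ ∀ z' ∈ zer X (X.van Z), z'.1 a ≠ 0 → z' ∈ Z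

variable {X Y : Spc} {Z W : Set X.Pt} {I J p : Ideal X.R} {d e : ℕ}

theorem mem_zer {z : X.Pt} : z ∈ zer X I ↔ ∀ r ∈ I, z.1 r = 0 := Iff.rfl

theorem le_van_iff : I ≤ X.van Z ↔ Z ⊆ zer X I :=
  ⟨fun h z hz r hr => h hr z hz, fun h r hr z hz => h hz r hr⟩

theorem van_anti (h : Z ⊆ W) : X.van W ≤ X.van Z := fun _ hr z hz => hr z (h hz)

theorem zer_anti (h : I ≤ J) : zer X J ⊆ zer X I := fun _ hz r hr => hz r (h hr)

theorem subset_zer_van : Z ⊆ zer X (X.van Z) := le_van_iff.1 le_rfl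

theorem le_van_zer : I ≤ X.van (zer X I) := le_van_iff.2 subset_rfl

theorem van_zer_van : X.van (zer X (X.van Z)) = X.van Z :=
  le_antisymm (van_anti subset_zer_van) le_van_zer

theorem clo_zer : X.Clo (zer X I) := fun _ hz => zer_anti le_van_zer hz

theorem clo_iff : X.Clo Z ↔ zer X (X.van Z) = Z :=
  ⟨fun h => subset_antisymm h subset_zer_van, fun h => h.le⟩

theorem clo_univ : X.Clo Set.univ := fun _ _ => trivial

theorem clo_inter (h : X.Clo Z) (h' : X.Clo W) : X.Clo (Z ∩ W) := fun z hz =>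
  ⟨h z (zer_anti (van_anti Set.inter_subset_left) hz),
    h' z (zer_anti (van_anti Set.inter_subset_right) hz)⟩

theorem clo_union (h : X.Clo Z) (h' : X.Clo W) : X.Clo (Z ∪ W) := fun z hz => by
  by_contra o
  obtain ⟨o1, o2⟩ := not_or.1 o
  obtain ⟨r, hr, h1⟩ : ∃ r ∈ X.van Z, z.1 r ≠ 0 := by simpa using mt (h z) o1
  obtain ⟨s, hs, h2⟩ : ∃ r ∈ X.van W, z.1 r ≠ 0 := by simpa using mt (h' z) o2
  refine mul_ne_zero h1 h2 ((map_mul _ _ _).symm.trans (hz _ fun w hw => ?_))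
  rw [map_mul]
  exact hw.elim (fun hw => mul_eq_zero_of_left (hr w hw) _) fun hw =>
    mul_eq_zero_of_right _ (hs w hw)

theorem clo_preimage (f : Mor Y X) (h : X.Clo Z) : Y.Clo (f.onPt ⁻¹' Z) := fun y hy =>
  h _ fun r hr => hy (f.φ r) fun w hw => hr _ hw

theorem stab_zer (h : ∀ g, ∀ r ∈ I, X.act g r ∈ I) : X.Stab (zer X I) := by
  rintro z hz z' ⟨g, e⟩ r hr
  rw [e]
  exact hz _ (h g r hr)

theorem stab_preimage (f : Mor Y X) (h : X.Stab Z) : Y.Stab (f.onPt ⁻¹' Z) :=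
  fun _ hy _ ho => h _ hy _ (f.orb ho)

theorem LC.of_clo (h : X.Clo Z) : LC X Z := fun _ _ => ⟨1, by simp, fun z' hz' _ => h z' hz'⟩

theorem LC.inter (h : LC X Z) (h' : LC X W) : LC X (Z ∩ W) := fun z hz => by
  obtain ⟨a, ha, h1⟩ := h z hz.1
  obtain ⟨b, hb, h2⟩ := h' z hz.2
  refine ⟨a * b, by rw [map_mul]; exact mul_ne_zero ha hb, fun z' hz' h3 => ?_⟩
  rw [map_mul] at h3
  exact ⟨h1 z' (zer_anti (van_anti Set.inter_subset_left) hz') (left_ne_zero_of_mul h3),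
    h2 z' (zer_anti (van_anti Set.inter_subset_right) hz') (right_ne_zero_of_mul h3)⟩

theorem LC.compl (h : X.Clo Z) : LC X Zᶜ := fun z hz => by
  obtain ⟨r, hr, h1⟩ : ∃ r ∈ X.van Z, z.1 r ≠ 0 := by simpa using mt (h z) hz
  exact ⟨r, h1, fun z' _ h2 h3 => h2 (hr z' h3)⟩

theorem LC.preimage (f : Mor Y X) (h : LC X Z) : LC Y (f.onPt ⁻¹' Z) := fun y hy => by
  obtain ⟨a, ha, h1⟩ := h _ hy
  exact ⟨f.φ a, ha, fun y' hy' h2 => h1 _ (fun r hr => hy' (f.φ r) fun w hw => hr _ hw) h2⟩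

theorem van_union : X.van (Z ∪ W) = X.van Z ⊓ X.van W :=
  le_antisymm (le_inf (van_anti Set.subset_union_left) (van_anti Set.subset_union_right))
    fun _ hr z hz => hz.elim (hr.1 z) (hr.2 z)

theorem van_univ : X.van Set.univ = ⊥ :=
  eq_bot_iff.2 fun r hr => X.sep r fun z hz => hr ⟨z, hz⟩ trivial

theorem van_eq_top : X.van Z = ⊤ ↔ Z = ∅ := by
  refine ⟨fun h => Set.eq_empty_of_forall_notMem fun z hz => ?_, fun h => ?_⟩
  · exact one_ne_zero ((map_one z.1).symm.trans (h.ge Submodule.mem_top z hz))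
  · subst h
    exact eq_top_iff.2 fun _ _ _ hz => hz.elim

theorem van_singleton (z : X.Pt) : X.van {z} = RingHom.ker z.1 :=
  Ideal.ext fun _ => ⟨fun h => h z rfl, fun h _ e => e ▸ h⟩

theorem clo_singleton (z : X.Pt) : X.Clo {z} := fun z' h =>
  Subtype.ext (pt_ext (z := z.1) (van_singleton z ▸ h)).symm

theorem van_image (f : Mor X Y) (Z : Set X.Pt) : Y.van (f.onPt '' Z) = (X.van Z).comap f.φ :=
  Ideal.ext fun _ => ⟨fun h z hz => h _ ⟨z, hz, rfl⟩, by rintro h _ ⟨z, hz, rfl⟩; exact h z hz⟩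

theorem van_radical : (X.van Z).radical = X.van Z :=
  le_antisymm (fun _ ⟨_, h⟩ z hz => pow_eq_zero_iff'.1 ((map_pow _ _ _).symm.trans (h z hz)) |>.1)
    Ideal.le_radical

/-- a point of a prime off the irrelevant locus -/
theorem exists_zer [hp : p.IsPrime] (hb : ¬X.b ≤ p) {a : X.R} (ha : a ∉ p) :
    ∃ z ∈ zer X p, z.1 a ≠ 0 := by
  obtain ⟨f, hf, hf'⟩ := SetLike.not_le_iff_exists.1 hb
  obtain ⟨z, h1, h2⟩ := exists_pt_ne (k := ℂ) (hp.mul_notMem hf' ha)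
  rw [map_mul] at h2
  exact ⟨⟨z, f, hf, left_ne_zero_of_mul h2⟩, h1, right_ne_zero_of_mul h2⟩

theorem van_zer_prime [p.IsPrime] (hb : ¬X.b ≤ p) : X.van (zer X p) = p :=
  le_antisymm (fun r hr => by
    by_contra o
    obtain ⟨z, h1, h2⟩ := exists_zer hb o
    exact h2 (hr z h1)) le_van_zer

theorem not_b_le {z : X.Pt} (hz : z ∈ zer X p) : ¬X.b ≤ p := fun h =>
  let ⟨f, hf, h1⟩ := z.2
  h1 (hz f (h hf))

/-- the Nullstellensatz off the irrelevant locus -/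
theorem mem_van_zer {r : X.R} : r ∈ X.van (zer X I) ↔ ∀ f ∈ X.b, f * r ∈ I.radical := by
  refine ⟨fun h f hf => mem_radical (k := ℂ) fun z hz => ?_, fun h z hz => ?_⟩
  · rw [map_mul]
    by_cases h1 : z f = 0
    · rw [h1, zero_mul]
    · rw [h ⟨z, f, hf, h1⟩ hz, mul_zero]
  · obtain ⟨f, hf, h1⟩ := z.2
    obtain ⟨n, hn⟩ := h f hf
    have := hz _ hn
    rw [map_pow, map_mul] at this
    exact (mul_eq_zero.1 (pow_eq_zero_iff'.1 this).1).resolve_left h1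

theorem van_zer_le [hp : p.IsPrime] (hb : ¬X.b ≤ p) (h : I ≤ p) : X.van (zer X I) ≤ p :=
  (van_anti (zer_anti h)).trans (van_zer_prime hb).le

theorem exists_sep {R : Type} [CommRing R] [IsNoetherianRing R] {I p : Ideal R}
    (hp : p ∈ I.minimalPrimes) : ∃ a ∉ p, ∀ x ∈ p, a * x ∈ I.radical := by
  classical
  have hf := Ideal.finite_minimalPrimes_of_isNoetherianRing R I
  have : ¬(hf.toFinset.erase p).inf id ≤ p := fun h => by
    obtain ⟨q, hq, h1⟩ := hp.1.1.inf_le'.1 h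
    obtain ⟨h2, h3⟩ := Finset.mem_erase.1 hq
    exact h2 (le_antisymm h1 (hp.2 (hf.mem_toFinset.1 h3).1 h1))
  obtain ⟨a, ha, ha'⟩ := SetLike.not_le_iff_exists.1 this
  refine ⟨a, ha', fun x hx => ?_⟩
  rw [← Ideal.sInf_minimalPrimes]
  refine Ideal.mem_sInf.2 fun {q} hq => ?_
  by_cases e : q = p
  · exact e ▸ p.mul_mem_left _ hx
  · exact q.mul_mem_right _
      (Finset.inf_le (f := id) (Finset.mem_erase.2 ⟨e, hf.mem_toFinset.2 hq⟩) ha)

/-- the points of a set are dense in each of its components -/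
theorem dense (hp : p ∈ (X.van Z).minimalPrimes) {a : X.R} (ha : a ∉ p) :
    ∃ z ∈ Z, z ∈ zer X p ∧ z.1 a ≠ 0 := by
  obtain ⟨c, hc, h⟩ := exists_sep hp
  rw [van_radical] at h
  obtain ⟨z, hz, h1⟩ : ∃ z ∈ Z, z.1 (c * a) ≠ 0 := by
    by_contra o
    push Not at o
    exact hp.1.1.mul_notMem hc ha (hp.1.2 o)
  rw [map_mul] at h1
  exact ⟨z, hz, fun x hx => (mul_eq_zero.1 ((map_mul _ _ _).symm.trans (h x hx z hz))).resolve_left
    (left_ne_zero_of_mul h1), right_ne_zero_of_mul h1⟩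

theorem not_b_le_min (hp : p ∈ (X.van Z).minimalPrimes) : ¬X.b ≤ p :=
  let ⟨_, _, h, _⟩ := dense hp ((Ideal.ne_top_iff_one _).1 hp.1.1.ne_top)
  not_b_le h

theorem van_inter_zer (hp : p ∈ (X.van Z).minimalPrimes) : X.van (Z ∩ zer X p) = p :=
  le_antisymm (fun r hr => by
    by_contra o
    obtain ⟨z, h1, h2, h3⟩ := dense hp o
    exact h3 (hr z ⟨h1, h2⟩)) (le_van_iff.2 Set.inter_subset_right)

theorem exists_comp {z : X.Pt} (hz : z ∈ zer X (X.van Z)) :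
    ∃ p ∈ (X.van Z).minimalPrimes, z ∈ zer X p :=
  have := ker_isMaximal z.1
  Ideal.exists_minimalPrimes_le (I := X.van Z) (J := RingHom.ker z.1) hz

theorem finite_comp (I : Ideal X.R) : I.minimalPrimes.Finite :=
  Ideal.finite_minimalPrimes_of_isNoetherianRing _ I

theorem min_zer (hp : p ∈ (X.van (zer X I)).minimalPrimes) : p ∈ I.minimalPrimes := by
  have := hp.1.1
  refine ⟨⟨this, le_van_zer.trans hp.1.2⟩, fun q hq h => ?_⟩
  have := hq.1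
  exact hp.2 ⟨this, van_zer_le (fun h1 => not_b_le_min hp (h1.trans h)) hq.2⟩ h

theorem min_zer' (hp : p ∈ I.minimalPrimes) (hb : ¬X.b ≤ p) :
    p ∈ (X.van (zer X I)).minimalPrimes :=
  have := hp.1.1
  ⟨⟨this, van_zer_le hb hp.1.2⟩, fun _ hq h => hp.2 ⟨hq.1, le_van_zer.trans hq.2⟩ h⟩

/-- the minimal primes of a stable ideal are stable -/
theorem stab_min (h : ∀ g, ∀ r ∈ I, X.act g r ∈ I) (hp : p ∈ I.minimalPrimes) :
    ∀ g, ∀ r ∈ p, X.act g r ∈ p := by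
  refine Spc.stab_of_finite (finite_comp I) (fun g q hq => ?_) hp
  refine ⟨⟨hq.1.1.comap _, fun r hr => hq.1.2 (h g r hr)⟩, fun q' hq' h1 r hr => ?_⟩
  have := hq.2 (y := q'.comap (X.act g⁻¹)) ⟨hq'.1.comap _, fun r hr => hq'.2 (h _ r hr)⟩
    (fun r hr => by simpa [X.act_act_inv] using h1 hr) hr
  rwa [Ideal.mem_comap, X.act_inv_act] at this

theorem stab_comp (hZ : X.Stab Z) (hp : p ∈ (X.van Z).minimalPrimes) : X.Stab (zer X p) :=
  stab_zer (stab_min (Spc.van_act hZ) hp)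

/-! ### dimension -/

theorem cdim_lt_iff : X.cdim Z < d ↔ ∀ p ∈ (X.van Z).minimalPrimes, td ℂ (X.R ⧸ p) < d :=
  dim_quot_lt_iff _ d

theorem cdim_lt_iff' :
    X.cdim Z < d ↔ ∀ p : Ideal X.R, p.IsPrime → X.van Z ≤ p → td ℂ (X.R ⧸ p) < d :=
  dim_quot_lt_iff' _ d

theorem le_iff_lt_succ {a : WithBot ℕ∞} : a ≤ d ↔ a < (d + 1 : ℕ) := by
  induction a using WithBot.recBotCoe with
  | bot => simp [WithBot.bot_lt_iff_ne_bot]
  | coe a => exact_mod_cast (ENat.lt_add_one_iff (ENat.natCast_ne_top d)).symm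

theorem cdim_le_iff : X.cdim Z ≤ d ↔ ∀ p ∈ (X.van Z).minimalPrimes, td ℂ (X.R ⧸ p) ≤ d := by
  simp only [le_iff_lt_succ, cdim_lt_iff, Nat.lt_succ_iff]

theorem le_cdim_iff : (d : WithBot ℕ∞) ≤ X.cdim Z ↔
    ∃ p ∈ (X.van Z).minimalPrimes, d ≤ td ℂ (X.R ⧸ p) := by
  rw [← not_lt, cdim_lt_iff]
  push Not
  rfl

theorem td_le_cdim [hp : p.IsPrime] (h : X.van Z ≤ p) :
    ((td ℂ (X.R ⧸ p) : ℕ) : WithBot ℕ∞) ≤ X.cdim Z :=
  not_lt.1 fun h1 => lt_irrefl _ (cdim_lt_iff'.1 h1 p hp h)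

theorem cdim_prime [hp : (X.van Z).IsPrime] : X.cdim Z = (td ℂ (X.R ⧸ X.van Z) : ℕ) := dim_eq_td

theorem cdim_zer_prime [p.IsPrime] (hb : ¬X.b ≤ p) : X.cdim (zer X p) = (td ℂ (X.R ⧸ p) : ℕ) := by
  rw [Spc.cdim, van_zer_prime hb, dim_eq_td (k := ℂ)]

theorem cdim_le_of_van (h : X.van W ≤ X.van Z) : X.cdim Z ≤ X.cdim W :=
  le_of_forall_lt fun _ h1 => cdim_lt_iff'.2 fun p hp h2 => cdim_lt_iff'.1 h1 p hp (h.trans h2)

theorem cdim_mono (h : Z ⊆ W) : X.cdim Z ≤ X.cdim W := cdim_le_of_van (van_anti h)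

theorem cdim_zer_van : X.cdim (zer X (X.van Z)) = X.cdim Z := by
  rw [Spc.cdim, van_zer_van, Spc.cdim]

theorem cdim_univ : X.cdim Set.univ = ringKrullDim X.R := by
  rw [Spc.cdim, van_univ]
  exact ringKrullDim_eq_of_ringEquiv (RingEquiv.quotientBot _)

theorem cdim_sub (hZ : X.Stab Z) : ringKrullDim (X.sub Z hZ).R = X.cdim Z := rfl

theorem cdim_empty : X.cdim ∅ = ⊥ := by
  rw [Spc.cdim, van_eq_top.2 rfl]
  exact ringKrullDim_eq_bot_of_subsingleton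

theorem cdim_nat (h : Z.Nonempty) :
    ∃ p ∈ (X.van Z).minimalPrimes, X.cdim Z = (td ℂ (X.R ⧸ p) : ℕ) := by
  obtain ⟨z, hz⟩ := h
  obtain ⟨q, hq, -⟩ := exists_comp (subset_zer_van hz)
  obtain ⟨p, hp, h⟩ := Set.exists_max_image _ (fun p => td ℂ (X.R ⧸ p)) (finite_comp _) ⟨q, hq⟩
  exact ⟨p, hp, le_antisymm (cdim_le_iff.2 h) (le_cdim_iff.2 ⟨p, hp, le_rfl⟩)⟩

theorem cdim_lt_zero : X.cdim Z < (0 : ℕ) ↔ Z = ∅ := by
  refine ⟨fun h => Set.not_nonempty_iff_eq_empty.1 fun h1 => ?_, fun h => ?_⟩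
  · obtain ⟨p, hp, -⟩ := cdim_nat h1
    exact Nat.not_lt_zero _ (cdim_lt_iff.1 h p hp)
  · rw [h, cdim_empty]
    exact WithBot.bot_lt_coe _

theorem cdim_iUnion_lt {ι : Type} [Finite ι] {Z : ι → Set X.Pt} (h : ∀ i, X.cdim (Z i) < d) :
    X.cdim (⋃ i, Z i) < d := by
  have := Fintype.ofFinite ι
  refine cdim_lt_iff'.2 fun p hp h1 => ?_
  obtain ⟨i, -, h2⟩ := (hp.inf_le' (s := Finset.univ) (f := fun i => X.van (Z i))).1 fun r hr =>
    h1 fun z hz => by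
      obtain ⟨i, hi⟩ := Set.mem_iUnion.1 hz
      exact Finset.inf_le (f := fun i => X.van (Z i)) (Finset.mem_univ i) hr z hi
  exact cdim_lt_iff'.1 (h i) p hp h2

theorem cdim_union_lt (h : X.cdim Z < d) (h' : X.cdim W < d) : X.cdim (Z ∪ W) < d :=
  cdim_lt_iff'.2 fun p hp h1 => (hp.inf_le.1 (van_union ▸ h1)).elim (cdim_lt_iff'.1 h p hp)
    (cdim_lt_iff'.1 h' p hp)

theorem cdim_union : X.cdim (Z ∪ W) = max (X.cdim Z) (X.cdim W) :=
  le_antisymm (le_of_forall_lt fun _ h => cdim_union_lt (max_lt_iff.1 h).1 (max_lt_iff.1 h).2)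
    (max_le (cdim_mono Set.subset_union_left) (cdim_mono Set.subset_union_right))

theorem cdim_singleton (z : X.Pt) : X.cdim {z} = (0 : ℕ) := by
  have := ker_isMaximal z.1
  rw [Spc.cdim, van_singleton, dim_eq_td (k := ℂ), td_maximal]

theorem cdim_subsingleton (h : Z.Subsingleton) : X.cdim Z ≤ (0 : ℕ) := by
  rcases h.eq_empty_or_singleton with rfl | ⟨z, rfl⟩
  · rw [cdim_empty]; exact bot_le
  · exact (cdim_singleton z).le

theorem cdim_zer_lt_iff : X.cdim (zer X I) < d ↔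
    ∀ p : Ideal X.R, p.IsPrime → I ≤ p → ¬X.b ≤ p → td ℂ (X.R ⧸ p) < d :=
  ⟨fun h p hp h1 h2 => cdim_lt_iff'.1 h p hp (van_zer_le h2 h1), fun h =>
    cdim_lt_iff.2 fun p hp => h p hp.1.1 (le_van_zer.trans hp.1.2) (not_b_le_min hp)⟩

theorem cdim_zer_le : X.cdim (zer X I) ≤ ringKrullDim (X.R ⧸ I) :=
  le_of_forall_lt fun d h => cdim_zer_lt_iff.2 fun p hp h1 _ => (dim_quot_lt_iff' I d).1 h p hp h1

/-- the dimension drops on a proper closed subset of an irreducible set -/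
theorem cdim_drop [hp : (X.van Z).IsPrime] (h : X.van Z ≤ X.van W) {a : X.R} (ha : a ∉ X.van Z)
    (ha' : a ∈ X.van W) (hd : X.cdim Z ≤ d) : X.cdim W < d := by
  rw [cdim_prime, Nat.cast_le] at hd
  exact cdim_lt_iff'.2 fun q hq h1 => (td_lt (lt_of_le_of_ne (h.trans h1)
    fun e => ha (e ▸ h1 ha'))).trans_le hd

/-- a subset of full dimension of an irreducible set is dense -/
theorem van_eq_of_cdim [hp : (X.van Z).IsPrime] (h : X.van Z ≤ X.van W)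
    (hd : X.cdim Z ≤ X.cdim W) : X.van W = X.van Z := by
  refine le_antisymm (fun a ha => by_contra fun o => ?_) h
  exact (cdim_drop h o ha cdim_prime.le).not_ge (cdim_prime.ge.trans hd)

/-- the irreducibility criterion -/
theorem van_prime_of {U : Set X.Pt} [hU : (X.van U).IsPrime] (h1 : U ⊆ Z) (h2 : Z ⊆ U ∪ W)
    (hW : X.cdim W < d) (hZ : ∀ p ∈ (X.van Z).minimalPrimes, d ≤ td ℂ (X.R ⧸ p)) :
    X.van Z = X.van U := by
  refine le_antisymm (van_anti h1) ?_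
  rw [← van_radical (Z := Z), ← Ideal.sInf_minimalPrimes]
  refine le_sInf fun p hp => ?_
  exact (hp.1.1.inf_le.1 (van_union ▸ (van_anti h2).trans hp.1.2)).resolve_right fun h =>
    (hZ p hp).not_gt (cdim_lt_iff'.1 hW p hp.1.1 h)

/-- a set that is locally cut out by `e` equations has codimension at most `e` -/
theorem codim_local (hW : LC X W) (hd : ∀ q ∈ (X.van W).minimalPrimes, d ≤ td ℂ (X.R ⧸ q))
    (h : ∀ z ∈ Z, ∃ (a : X.R) (f : Fin e → X.R), z.1 a ≠ 0 ∧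
      ∀ z' : X.Pt, z'.1 a ≠ 0 → (z' ∈ Z ↔ z' ∈ W ∧ ∀ i, z'.1 (f i) = 0)) :
    ∀ p ∈ (X.van Z).minimalPrimes, d ≤ td ℂ (X.R ⧸ p) + e := by
  intro p hp
  have := hp.1.1
  obtain ⟨z, hz, h1, -⟩ := dense hp ((Ideal.ne_top_iff_one _).1 this.ne_top)
  obtain ⟨a, f, ha, h2⟩ := h z hz
  obtain ⟨c, hc, h3⟩ := hW z ((h2 z ha).1 hz).1
  have ha' : a ∉ p := fun o => ha (h1 _ o)
  have h4 : ∀ r, (∀ z' ∈ W, (∀ i, z'.1 (f i) = 0) → z'.1 r = 0) → r ∈ p := fun r hr => by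
    by_contra o
    obtain ⟨z', h5, -, h6⟩ := dense hp (this.mul_notMem ha' o)
    rw [map_mul] at h6
    obtain ⟨h7, h8⟩ := (h2 z' (left_ne_zero_of_mul h6)).1 h5
    exact right_ne_zero_of_mul h6 (hr z' h7 h8)
  obtain ⟨q, hq, hqp⟩ := Ideal.exists_minimalPrimes_le (I := X.van W) (J := p)
    fun r hr => h4 r fun z' h5 _ => hr z' h5
  have := hq.1.1
  have h5 : p ∈ (q ⊔ Ideal.span (Set.range f)).minimalPrimes := by
    refine ⟨⟨hp.1.1, sup_le hqp (Ideal.span_le.2 ?_)⟩, fun q' hq' h6 => hp.2 ⟨hq'.1, ?_⟩ h6⟩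
    · rintro _ ⟨i, rfl⟩
      exact h4 _ fun _ _ h => h i
    · intro r hr
      by_contra o
      have := hq'.1
      obtain ⟨z', h7, h8⟩ := exists_zer (fun h => not_b_le h1 (h.trans h6))
        (this.mul_notMem (this.mul_notMem (fun h => ha' (h6 h)) fun h => hc (h1 _ (h6 h))) o)
      rw [map_mul, map_mul] at h8
      exact right_ne_zero_of_mul h8 (hr z' ((h2 z' (left_ne_zero_of_mul (left_ne_zero_of_mul h8))).2
        ⟨h3 z' (zer_anti (hq.1.2.trans (le_sup_left.trans hq'.2)) h7)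
          (right_ne_zero_of_mul (left_ne_zero_of_mul h8)), fun i =>
          h7 _ (hq'.2 (Submodule.mem_sup_right (Ideal.subset_span ⟨i, rfl⟩)))⟩))
  simpa using (hd q hq).trans (krull' (k := ℂ) h5)

/-! ### fibres -/

theorem cdim_image (f : Mor X Y) (Z : Set X.Pt) : Y.cdim (f.onPt '' Z) ≤ X.cdim Z := by
  refine le_of_forall_lt fun d h => cdim_lt_iff.2 fun p hp => ?_
  rw [van_image] at hp
  obtain ⟨P, hP, h1⟩ : ∃ P ∈ (X.van Z).minimalPrimes, P.comap f.φ ≤ p := by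
    obtain ⟨P, h1, h2⟩ := (hp.1.1.inf_le' (s := (finite_comp (X.van Z)).toFinset)
      (f := fun P => P.comap f.φ)).1 fun r hr => hp.1.2 (by
        rw [Ideal.mem_comap, ← van_radical, ← Ideal.sInf_minimalPrimes]
        exact Ideal.mem_sInf.2 fun {q} hq => Finset.inf_le (f := fun P : Ideal X.R => P.comap f.φ)
          ((finite_comp _).mem_toFinset.2 hq) hr)
    exact ⟨P, (finite_comp _).mem_toFinset.1 h1, h2⟩
  have := hP.1.1
  have := hp.1.1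
  exact ((td_anti h1).trans (td_comap_le f.φ P)).trans_lt (cdim_lt_iff.1 h P hP)

theorem van_image_prime (f : Mor X Y) [h : (X.van Z).IsPrime] : (Y.van (f.onPt '' Z)).IsPrime :=
  van_image f Z ▸ h.comap _

/-- small fibres and small image: small source -/
theorem cdim_lt_add (f : Mor X Y) (hZ : LC X Z) (h0 : W ⊆ Z)
    (hf : ∀ z ∈ W, X.cdim {x ∈ Z | f.onPt x = f.onPt z} ≤ e) (hd : Y.cdim (f.onPt '' W) < d) :
    X.cdim W < (d + e : ℕ) := by
  refine cdim_lt_iff.2 fun p hp => ?_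
  have := hp.1.1
  obtain ⟨z, hz, h1, -⟩ := dense hp ((Ideal.ne_top_iff_one _).1 this.ne_top)
  obtain ⟨Q, hQ, h2, h3⟩ := exists_fibre_comp f.φ z.1 h1
  have := hQ.1.1
  obtain ⟨a, ha, h4⟩ := hZ z (h0 hz)
  have h5 := cdim_lt_iff'.1 hd (p.comap f.φ) inferInstance
    (van_image f W ▸ Ideal.comap_mono hp.1.2)
  have h6 : X.van {x ∈ Z | f.onPt x = f.onPt z} ≤ Q := fun r hr => by
    by_contra o
    obtain ⟨z', h7, h8⟩ := exists_zer (not_b_le (z := z) h2)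
      (this.mul_notMem (fun h => ha (h2 _ h)) o)
    rw [map_mul] at h8
    refine right_ne_zero_of_mul h8 (hr z' ⟨h4 z' (zer_anti ((van_anti h0).trans
      (hp.1.2.trans (le_sup_left.trans hQ.1.2))) h7) (left_ne_zero_of_mul h8),
      Subtype.ext (pt_ext fun r hr => ?_).symm⟩)
    exact h7 _ (hQ.1.2 (Submodule.mem_sup_right (Ideal.mem_map_of_mem _ hr)))
  have h7 := (td_le_cdim h6).trans (hf z hz)
  rw [Nat.cast_le] at h7
  omega

theorem cdim_le_add (f : Mor X Y) (hZ : LC X Z) (h0 : W ⊆ Z)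
    (hf : ∀ z ∈ W, X.cdim {x ∈ Z | f.onPt x = f.onPt z} ≤ e) (hd : Y.cdim (f.onPt '' W) ≤ d) :
    X.cdim W ≤ (d + e : ℕ) :=
  le_iff_lt_succ.2 (Nat.add_right_comm d 1 e ▸ cdim_lt_add f hZ h0 hf (le_iff_lt_succ.1 hd))

/-- big fibres and big image: big source -/
theorem add_le_cdim (f : Mor X Y)
    (hf : ∀ z ∈ Z, (e : WithBot ℕ∞) ≤ X.cdim {x ∈ Z | f.onPt x = f.onPt z})
    (hd : (d : WithBot ℕ∞) ≤ Y.cdim (f.onPt '' Z)) : ((d + e : ℕ) : WithBot ℕ∞) ≤ X.cdim Z := by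
  classical
  obtain ⟨p, hp, hd⟩ := le_cdim_iff.1 hd
  have := hp.1.1
  have key : ∀ P ∈ (X.van Z).minimalPrimes, ∃ t ∉ p, ∀ y : Y.R →ₐ[ℂ] ℂ, y t ≠ 0 →
      ∀ Q : Ideal X.R, Q.IsPrime → P ⊔ (RingHom.ker y).map f.φ ≤ Q →
        td ℂ (X.R ⧸ Q) + td ℂ (Y.R ⧸ p) ≤ td ℂ (X.R ⧸ P) := fun P hP => by
    have := hP.1.1
    by_cases h : P.comap f.φ ≤ p
    · obtain rfl : P.comap f.φ = p := le_antisymm h (hp.2 ⟨inferInstance,
        van_image f Z ▸ Ideal.comap_mono hP.1.2⟩ h)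
      obtain ⟨a, ha, h1⟩ := generic_fibre_pt f.φ P
      exact ⟨a, ha, fun y hy => (h1 y hy).1⟩
    · obtain ⟨t, ht, ht'⟩ := SetLike.not_le_iff_exists.1 h
      refine ⟨t, ht', fun y hy Q hQ h1 => (hQ.ne_top (Q.eq_top_of_isUnit_mem ?_
        ((IsUnit.mk0 _ hy).map (algebraMap ℂ X.R)))).elim⟩
      have := Q.sub_mem (h1 (Submodule.mem_sup_left ht))
        (h1 (Submodule.mem_sup_right (Ideal.mem_map_of_mem _ (sub_mem_ker y t))))
      rwa [map_sub, sub_sub_cancel, AlgHom.commutes] at this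
  choose! t ht h1 using key
  obtain ⟨_, ⟨z, hz, rfl⟩, -, h2⟩ := dense (a := ∏ P ∈ (finite_comp (X.van Z)).toFinset, t P) hp
    fun h => by
      obtain ⟨P, hP, h⟩ := (Ideal.IsPrime.prod_mem_iff (hp := this)).1 h
      exact ht P ((finite_comp _).mem_toFinset.1 hP) h
  rw [map_prod, Finset.prod_ne_zero_iff] at h2
  obtain ⟨Q, hQ, h3⟩ := le_cdim_iff.1 (hf z hz)
  have := hQ.1.1
  obtain ⟨P, hP, h4⟩ := Ideal.exists_minimalPrimes_le (I := X.van Z) (J := Q)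
    ((van_anti (Set.sep_subset _ _)).trans hQ.1.2)
  have h5 := h1 P hP _ (h2 P ((finite_comp _).mem_toFinset.2 hP)) Q this
    (sup_le h4 (Ideal.map_le_iff_le_comap.2 fun r hr => hQ.1.2 fun x hx => by
      rw [← hx.2] at hr; exact hr))
  exact le_cdim_iff.2 ⟨P, hP, by omega⟩

/-! ### products -/

/-- a constant map -/
def cst (W : Spc) (y : Y.Pt) : Mor W Y where
  φ := (Algebra.ofId ℂ W.R).comp y.1
  ρ := 0
  wt_map := fun _ _ _ => W.algebraMap_mem _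
  pt_map := fun z => by simpa [Algebra.ofId_apply] using y.2

theorem cst_onPt (W : Spc) (y : Y.Pt) (w : W.Pt) : (cst W y).onPt w = y :=
  Subtype.ext (AlgHom.ext fun r => w.1.commutes _)

/-- a point of the product -/
noncomputable def pair (x : X.Pt) (y : Y.Pt) : (X.prod Y).Pt :=
  (Mor.lift (Mor.id X) (cst X y)).onPt x

theorem fst_pair (x : X.Pt) (y : Y.Pt) : (Mor.fst X Y).onPt (pair x y) = x := by
  rw [pair, ← Mor.onPt_comp, Mor.fst_lift, Mor.onPt_id]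

theorem snd_pair (x : X.Pt) (y : Y.Pt) : (Mor.snd X Y).onPt (pair x y) = y := by
  rw [pair, ← Mor.onPt_comp, Mor.snd_lift, cst_onPt]

theorem prod_pt_ext {w w' : (X.prod Y).Pt} (h1 : (Mor.fst X Y).onPt w = (Mor.fst X Y).onPt w')
    (h2 : (Mor.snd X Y).onPt w = (Mor.snd X Y).onPt w') : w = w' :=
  Subtype.ext (Algebra.TensorProduct.ext (congrArg Subtype.val h1) (congrArg Subtype.val h2))

theorem pair_eq (x : X.Pt) (y : Y.Pt) : (Mor.lift (cst Y x) (Mor.id Y)).onPt y = pair x y :=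
  prod_pt_ext (by rw [fst_pair, ← Mor.onPt_comp, Mor.fst_lift, cst_onPt])
    (by rw [snd_pair, ← Mor.onPt_comp, Mor.snd_lift, Mor.onPt_id])

/-- the product of two sets -/
def box (Z : Set X.Pt) (V : Set Y.Pt) : Set (X.prod Y).Pt :=
  (Mor.fst X Y).onPt ⁻¹' Z ∩ (Mor.snd X Y).onPt ⁻¹' V

variable {V : Set Y.Pt}

theorem pair_mem {x : X.Pt} {y : Y.Pt} : pair x y ∈ box Z V ↔ x ∈ Z ∧ y ∈ V := by
  simp only [box, Set.mem_inter_iff, Set.mem_preimage, fst_pair, snd_pair]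

theorem box_univ : box (Set.univ : Set X.Pt) (Set.univ : Set Y.Pt) = Set.univ := by simp [box]

theorem cdim_box_fibre {x : X.Pt} (hx : x ∈ Z) :
    (X.prod Y).cdim {w ∈ box Z V | (Mor.fst X Y).onPt w = x} = Y.cdim V := by
  refine le_antisymm ((cdim_mono fun w hw => ?_).trans
    (cdim_image (Mor.lift (cst Y x) (Mor.id Y)) V))
    ((cdim_mono fun y hy => ?_).trans (cdim_image (Mor.snd X Y) _))
  · exact ⟨_, hw.1.2, (pair_eq _ _).trans
      (prod_pt_ext ((fst_pair _ _).trans hw.2.symm) (snd_pair _ _))⟩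
  · exact ⟨pair x y, ⟨pair_mem.2 ⟨hx, hy⟩, fst_pair _ _⟩, snd_pair _ _⟩

theorem cdim_box_lt (h : X.cdim Z < d) (h' : Y.cdim V ≤ e) :
    (X.prod Y).cdim (box Z V) < (d + e : ℕ) :=
  cdim_lt_add (Mor.fst X Y) (Z := box Set.univ (zer Y (Y.van V)))
    (.of_clo (clo_inter (clo_preimage _ clo_univ) (clo_preimage _ clo_zer)))
    (fun _ hw => ⟨trivial, subset_zer_van hw.2⟩)
    (fun _ _ => by rw [cdim_box_fibre (Set.mem_univ _), cdim_zer_van]; exact h')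
    ((cdim_mono (by rintro _ ⟨w, hw, rfl⟩; exact hw.1)).trans_lt h)

theorem le_cdim_box (h : (d : WithBot ℕ∞) ≤ X.cdim Z) (h' : (e : WithBot ℕ∞) ≤ Y.cdim V) :
    ((d + e : ℕ) : WithBot ℕ∞) ≤ (X.prod Y).cdim (box Z V) := by
  obtain ⟨y, hy⟩ : V.Nonempty := Set.nonempty_iff_ne_empty.2 fun h1 =>
    (cdim_lt_zero.2 h1).not_ge ((Nat.cast_le.2 e.zero_le).trans h')
  exact add_le_cdim (Mor.fst X Y) (fun _ hw => by rw [cdim_box_fibre (Z := Z) hw.1]; exact h')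
    (h.trans (cdim_mono fun x hx => ⟨pair x y, pair_mem.2 ⟨hx, hy⟩, fst_pair _ _⟩))

theorem cdim_box (h : X.cdim Z = d) (h' : Y.cdim V = e) :
    (X.prod Y).cdim (box Z V) = (d + e : ℕ) :=
  le_antisymm (le_iff_lt_succ.2 (Nat.add_right_comm d 1 e ▸
    cdim_box_lt (le_iff_lt_succ.1 h.le) h'.le)) (le_cdim_box h.ge h'.ge)

theorem van_box_prime [h : (X.van Z).IsPrime] [h' : (Y.van V).IsPrime] :
    ((X.prod Y).van (box Z V)).IsPrime := by
  have e : ∀ w : (X.prod Y).Pt, pair ((Mor.fst X Y).onPt w) ((Mor.snd X Y).onPt w) = w :=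
    fun w => prod_pt_ext (fst_pair _ _) (snd_pair _ _)
  refine ⟨fun h1 => ?_, fun {r s} h1 => ?_⟩
  · obtain ⟨x, hx⟩ := Set.nonempty_iff_ne_empty.2 (mt van_eq_top.2 h.ne_top)
    obtain ⟨y, hy⟩ := Set.nonempty_iff_ne_empty.2 (mt van_eq_top.2 h'.ne_top)
    exact (van_eq_top.1 h1).le (pair_mem.2 ⟨hx, hy⟩)
  · by_contra o
    obtain ⟨⟨w, hw, h2⟩, w', hw', h3⟩ : (∃ w ∈ box Z V, w.1 r ≠ 0) ∧ ∃ w ∈ box Z V, w.1 s ≠ 0 := by
      simpa [Spc.mem_van] using o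
    rw [← e w] at h2
    rw [← e w'] at h3
    obtain ⟨x, hx, h4⟩ : ∃ x ∈ Z, x.1 ((Mor.lift (Mor.id X) (cst X ((Mor.snd X Y).onPt w))).φ r *
        (Mor.lift (Mor.id X) (cst X ((Mor.snd X Y).onPt w'))).φ s) ≠ 0 := by
      simpa [Spc.mem_van] using h.mul_notMem (fun h => h2 (h _ hw.1)) fun h => h3 (h _ hw'.1)
    rw [map_mul] at h4
    have h5 : (pair x ((Mor.snd X Y).onPt w)).1 r ≠ 0 := left_ne_zero_of_mul h4
    have h6 : (pair x ((Mor.snd X Y).onPt w')).1 s ≠ 0 := right_ne_zero_of_mul h4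
    rw [← pair_eq] at h5 h6
    refine h'.mul_notMem (fun h => h5 (h _ hw.2)) (fun h => h6 (h _ hw'.2)) fun y hy => ?_
    have := h1 _ (pair_mem.2 ⟨hx, hy⟩)
    rw [← pair_eq] at this
    exact (congrArg y.1 (map_mul _ _ _)).symm.trans this

end Vale.Agent.P297Z.Dim
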